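import Vale.Agent.P157.Parisi.Sphere.Upper.Weights
import Vale.Agent.P157.Parisi.Upper.Field

/-!
A small random field on a finite family of unit vectors.
-/

noncomputable section

open MeasureTheory ProbabilityTheory Filter
open scoped BigOperators ENNReal Topology

namespace Vale.Agent.P157.Parisi.Sphere.Up

open Vale.Agent.P157.Parisi.Up
open Vale.Agent.P168 (CascTree cascLaw cascSum cascMean cascFilter genNested)
open Vale.Agent.P168.Cascade
open Vale.Agent.P168.Upper (integral_mp mp_uncurry tendsto_integral_cascFilter cascFilter_neBot)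

variable {r N : ℕ} {P : Pts N}

lemma sum_abs_sv_le (σ : Conf P) : ∑ i, |sv σ i| ≤ N := by
  rcases Nat.eq_zero_or_pos N with h | h
  · subst h; simp
  have hN : (0 : ℝ) < N := Nat.cast_pos.2 h
  have h2 := sum_sv_sq h σ
  have := Finset.sum_le_sum (s := Finset.univ) (f := fun i => |sv σ i|)
    (g := fun i => (sv σ i ^ 2 + 1) / 2) fun i _ => by
      nlinarith [sq_nonneg (|sv σ i| - 1), sq_abs (sv σ i)]
  refine this.trans (le_of_eq ?_)
  rw [← Finset.sum_div, Finset.sum_add_distrib, h2]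
  simp


/-- The field of a configuration at a leaf. -/
def fieldX (δ a : ℝ) (ρ : Fin (r + 1) → ℝ) (e : Fin N → ℝ) (σ : Conf P)
    (η : Fin r → Fin N → ℝ) : ℝ :=
  Real.sqrt δ * ∑ i, sv σ i * pathField ρ (clipA a (e i)) fun p => clipA a (η p i)

/-- The weight of the field. -/
def fieldZ (δ a : ℝ) (ρ : Fin (r + 1) → ℝ) (e : Fin N → ℝ) (σ : Conf P)
    (η : Fin r → Fin N → ℝ) : ℝ :=
  Real.exp (fieldX δ a ρ e σ η)

lemma abs_fieldX_le {δ a : ℝ} (ha : 0 ≤ a) (ρ : Fin (r + 1) → ℝ) (e : Fin N → ℝ) (σ : Conf P)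
    (η : Fin r → Fin N → ℝ) :
    |fieldX δ a ρ e σ η| ≤ Real.sqrt δ * (N * (fieldLen ρ * a)) := by
  rw [fieldX, abs_mul, abs_of_nonneg (Real.sqrt_nonneg δ)]
  refine mul_le_mul_of_nonneg_left ((Finset.abs_sum_le_sum_abs _ _).trans
    ((Finset.sum_le_sum (g := fun i => |sv σ i| * (fieldLen ρ * a)) fun i _ => ?_).trans ?_))
    (Real.sqrt_nonneg δ)
  rw [abs_mul]
  exact mul_le_mul_of_nonneg_left (abs_pathField_le ρ (abs_clipA_le ha _) fun p => abs_clipA_le ha _) (abs_nonneg _)
  rw [← Finset.sum_mul]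
  exact mul_le_mul_of_nonneg_right (sum_abs_sv_le σ) (mul_nonneg (fieldLen_nonneg ρ) ha)

lemma measurable_fieldZ (δ a : ℝ) (ρ : Fin (r + 1) → ℝ) (σ : Conf P) :
    Measurable fun z : (Fin N → ℝ) × (Fin r → Fin N → ℝ) => fieldZ δ a ρ z.1 σ z.2 := by
  refine ((Finset.measurable_sum _ fun i _ => ?_).const_mul _).exp
  refine ((measurable_pathField ρ).comp
    (f := fun z : (Fin N → ℝ) × (Fin r → Fin N → ℝ) =>
      (clipA a (z.1 i), fun p => clipA a (z.2 p i))) (Measurable.prodMk ?_ ?_)).const_mul _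
  · exact (measurable_clipA a).comp ((measurable_pi_apply i).comp measurable_fst)
  · exact measurable_pi_lambda _ fun p =>
      (measurable_clipA a).comp ((measurable_pi_apply i).comp
        ((measurable_pi_apply p).comp measurable_snd))

variable {β : Type} [MeasurableSpace β]

/-- The field on a finite tree. -/
lemma field_tree {m : Fin r → ℝ} {ρ : Fin (r + 1) → ℝ} (hρ : Monotone ρ) (hρ0 : 0 ≤ ρ 0)
    {δ a C : ℝ} (hδ : 0 ≤ δ) (ha : 0 ≤ a) {w : Conf P → (Fin r → β) → ℝ} (hw : WBdd C w)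
    (hN : N ≠ 0) (hM : Real.sqrt δ * (N * (fieldLen ρ * a)) ≤ 1 / 10) {n : Fin r → ℕ} (hn : ∀ i, 0 < n i)
    {t : CascTree β r n} (ht : GoodTree r n t) :
    Real.log (cascMean m n (fun η => ∑ σ, w σ η) t) +
        svar a * δ / 2 * (N * ρ (Fin.last r) -
          N * ∑ i, ∑ c, comp m n ρ (fun η => ∑ σ, w σ η) (mag w i) t c ^ 2) -
        20 * (Real.sqrt δ * (N * (fieldLen ρ * a))) ^ 3 ≤
      ∫ γ, Real.log (cascMean m n
        (fun η : Fin r → β × (Fin N → ℝ) => ∑ σ, tens w (fieldZ δ a ρ (γ none)) σ η)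
        (att r n (t, fun c => γ (some c))))
        ∂(Measure.pi fun _ : Option (Node r n) => gam (Fin N)) := by
  classical
  set M := Real.sqrt δ * (N * (fieldLen ρ * a))
  set W : (Fin r → β) → ℝ := fun η => ∑ σ, w σ η
  set S := cascSum r m n W t with hS_def
  have hS : 0 < S := (cascSum_pos (bdd_sum hw) m hn ht).2
  have hS1 := cascSum_one_pos m hn ht
  let p : Conf P × Leaf r n → ℝ := fun x =>
    leafW r m n t x.2 * w x.1 (leafMarks r n t x.2) / S
  have hp : ∀ x, 0 ≤ p x := fun x =>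
    div_nonneg (mul_nonneg (leafW_pos _ _ _ _ _ ht).le ((hw x.1).gt_zero _).le) hS.le
  have hsum : ∀ F : Conf P → Leaf r n → ℝ,
      ∑ x, p x * F x.1 x.2 = (∑ l, leafW r m n t l *
        ∑ σ, w σ (leafMarks r n t l) * F σ l) / S := fun F => by
    rw [Fintype.sum_prod_type_right, Finset.sum_div]
    refine Finset.sum_congr rfl fun l _ => ?_
    rw [Finset.mul_sum, Finset.sum_div]
    exact Finset.sum_congr rfl fun σ _ => by simp only [p]; ring
  have hp1 : ∑ x, p x = 1 := by
    have := hsum fun _ _ => 1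
    simp only [mul_one] at this
    rw [this, ← cascSum_eq_sum_leaves r m n W t, ← hS_def, div_self hS.ne']
  set π := Measure.pi fun _ : Option (Node r n) => gam (Fin N)
  set φ : ℝ → ℝ := clipA a
  have hφm : Measurable φ := measurable_clipA a
  have hφb : ∀ x, |φ x| ≤ a := abs_clipA_le ha
  have hφ0 : ∫ x, φ x ∂gaussianReal 0 1 = 0 := integral_clipA ha
  let F : (Option (Node r n) → Fin N → ℝ) → Conf P × Leaf r n → ℝ := fun γ x =>
    fieldX δ a ρ (γ none) x.1 fun i => γ (some (node n x.2 i))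
  have hFb : ∀ γ x, |F γ x| ≤ M := fun γ x => abs_fieldX_le ha ρ _ _ _
  -- the field as a linear form
  let coef : Conf P → Leaf r n → Option (Node r n) × Fin N → ℝ := fun σ l z =>
    Real.sqrt δ * (sv σ z.2 * leafVec n ρ l z.1)
  have hlin : ∀ γ x, F γ x = ∑ z, coef x.1 x.2 z * φ (γ z.1 z.2) := fun γ x => by
    simp only [F, fieldX, coef, Fintype.sum_prod_type_right, Finset.mul_sum]
    refine Finset.sum_congr rfl fun i _ => ?_
    rw [← dot_leafVec n ρ x.2 (fun c => φ (γ c i)), dot, Finset.mul_sum, Finset.mul_sum]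
    exact Finset.sum_congr rfl fun c _ => by ring
  let A : Option (Node r n) × Fin N → ℝ := fun z =>
    Real.sqrt δ * (Real.sqrt N * comp m n ρ W (mag w z.2) t z.1)
  have hA : ∀ γ, ∑ x, p x * F γ x = ∑ z, A z * φ (γ z.1 z.2) := fun γ => by
    simp only [hlin, Finset.mul_sum]
    rw [Finset.sum_comm]
    refine Finset.sum_congr rfl fun z _ => ?_
    simp only [← mul_assoc, ← Finset.sum_mul]
    congr 1
    rw [hsum fun σ l => coef σ l z]
    simp only [A, comp, coef, mag, sv, Finset.mul_sum, Finset.sum_mul, ← mul_div_assoc]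
    congr 1
    exact Finset.sum_congr rfl fun l _ => Finset.sum_congr rfl fun σ _ => by ring
  have huncurry := mp_uncurry (ι := Option (Node r n)) (κ := Fin N) (gaussianReal 0 1)
  have hFm : ∀ x, Measurable fun γ => F γ x := fun x => by
    simp only [hlin]
    exact Finset.measurable_sum _ fun z _ =>
      (hφm.comp ((measurable_pi_apply z.2).comp (measurable_pi_apply z.1))).const_mul _
  have e1 : ∫ γ, ∑ x, p x * F γ x ∂π = 0 := by
    simp only [hA]
    exact (integral_mp huncurry (g := fun g => ∑ z, A z * φ (g z))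
      (Finset.measurable_sum _ fun z _ => (hφm.comp (measurable_pi_apply z)).const_mul _)).trans
      (integral_lin hφm hφb hφ0 A)
  have elin : ∀ c : Option (Node r n) × Fin N → ℝ,
      ∫ γ, (∑ z, c z * φ (γ z.1 z.2)) * (∑ z, c z * φ (γ z.1 z.2)) ∂π =
        svar a * ∑ z, c z * c z := fun c => by
    refine (integral_mp huncurry (g := fun g => (∑ z, c z * φ (g z)) * ∑ z, c z * φ (g z))
      ?_).trans (integral_lin_mul hφm hφb hφ0 c c)
    have hm' : Measurable fun g : Option (Node r n) × Fin N → ℝ => ∑ z, c z * φ (g z) :=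
      Finset.measurable_sum _ fun z _ => (hφm.comp (measurable_pi_apply z)).const_mul _
    exact hm'.mul hm'
  have hsqb : ∀ γ x, |F γ x * F γ x| ≤ M * M := fun γ x => by
    rw [abs_mul]; exact mul_le_mul (hFb γ x) (hFb γ x) (abs_nonneg _) ((abs_nonneg _).trans (hFb γ x))
  have e2 : ∫ γ, ∑ x, p x * (F γ x * F γ x) ∂π = svar a * δ * (N * ρ (Fin.last r)) := by
    rw [integral_finsetSum _ fun x _ =>
      (integrable_bdd (F := fun γ => F γ x * F γ x) ((hFm x).mul (hFm x))
        fun γ => hsqb γ x).const_mul _]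
    have : ∀ x, ∫ γ, p x * (F γ x * F γ x) ∂π = p x * (svar a * δ * (N * ρ (Fin.last r))) := by
      intro x
      rw [integral_const_mul]
      simp only [hlin, elin]
      congr 1
      rw [mul_assoc (svar a)]
      congr 1
      simp only [coef, Fintype.sum_prod_type_right]
      have : ∀ (i : Fin N) c, Real.sqrt δ * (sv x.1 i * leafVec n ρ x.2 c) *
          (Real.sqrt δ * (sv x.1 i * leafVec n ρ x.2 c)) =
            δ * (sv x.1 i ^ 2 * leafVec n ρ x.2 c ^ 2) := fun i c => by
        rw [show Real.sqrt δ * (sv x.1 i * leafVec n ρ x.2 c) *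
          (Real.sqrt δ * (sv x.1 i * leafVec n ρ x.2 c)) = (Real.sqrt δ * Real.sqrt δ) *
            (sv x.1 i ^ 2 * leafVec n ρ x.2 c ^ 2) by ring, Real.mul_self_sqrt hδ]
      simp only [this, ← Finset.mul_sum, sum_leafVec_sq n hρ hρ0 x.2]
      rw [← Finset.sum_mul, sum_sv_sq (Nat.pos_of_ne_zero hN) x.1]
    simp only [this, ← Finset.sum_mul, hp1, one_mul]
  have e3 : ∫ γ, (∑ x, p x * F γ x) * ∑ x, p x * F γ x ∂π =
      svar a * δ * (N * ∑ i, ∑ c, comp m n ρ W (mag w i) t c ^ 2) := by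
    simp only [hA]
    rw [elin A]
    simp only [A, Fintype.sum_prod_type_right]
    rw [mul_assoc]
    refine congrArg _ ?_
    rw [Finset.mul_sum, Finset.mul_sum]
    refine Finset.sum_congr rfl fun i _ => ?_
    rw [Finset.mul_sum, Finset.mul_sum]
    refine Finset.sum_congr rfl fun c _ => ?_
    rw [show ∀ x : ℝ, Real.sqrt δ * (Real.sqrt N * x) * (Real.sqrt δ * (Real.sqrt N * x)) =
      Real.sqrt δ * Real.sqrt δ * ((Real.sqrt N * Real.sqrt N) * x ^ 2) from
      fun x => by ring, Real.mul_self_sqrt hδ, Real.mul_self_sqrt (Nat.cast_nonneg N)]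
  -- pointwise
  have hL : ∀ γ, Real.log (cascMean m n
      (fun η : Fin r → β × (Fin N → ℝ) => ∑ σ, tens w (fieldZ δ a ρ (γ none)) σ η)
      (att r n (t, fun c => γ (some c)))) =
      Real.log (cascMean m n W t) + Real.log (∑ x, p x * Real.exp (F γ x)) := fun γ => by
    have h1 : cascSum r m n (fun _ : Fin r → β × (Fin N → ℝ) => (1 : ℝ))
        (att r n (t, fun c => γ (some c))) = cascSum r m n (fun _ => 1) t :=
      cascSum_att_fst m n (fun _ => 1) _
    have h2 : ∑ x, p x * Real.exp (F γ x) = cascSum r m n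
        (fun η : Fin r → β × (Fin N → ℝ) => ∑ σ, tens w (fieldZ δ a ρ (γ none)) σ η)
        (att r n (t, fun c => γ (some c))) / S := by
      rw [hsum fun σ l => Real.exp (F γ (σ, l)), cascSum_att]
      rfl
    have hpos := (Real.exp_pos _).trans_le (sum_exp_mem hp hp1 (hFb γ)).1
    rw [h2] at hpos ⊢
    rw [cascMean, cascMean, h1, Real.log_div ((div_pos_iff_of_pos_right hS).1 hpos).ne' hS1.ne',
      Real.log_div ((div_pos_iff_of_pos_right hS).1 hpos).ne' hS.ne',
      Real.log_div hS.ne' hS1.ne']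
    ring
  simp only [hL]
  have hi1 : Integrable (fun γ => ∑ x, p x * F γ x) π :=
    integrable_finsetSum _ fun x _ => (integrable_bdd (hFm x) fun γ => hFb γ x).const_mul _
  have hi2 : Integrable (fun γ => ∑ x, p x * (F γ x * F γ x)) π :=
    integrable_finsetSum _ fun x _ => (integrable_bdd ((hFm x).mul (hFm x))
      fun γ => hsqb γ x).const_mul _
  have hS1m : Measurable fun γ => ∑ x, p x * F γ x :=
    Finset.measurable_sum _ fun x _ => (hFm x).const_mul _
  have hS1b : ∀ γ, |∑ x, p x * F γ x| ≤ M := fun γ => by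
    refine (Finset.abs_sum_le_sum_abs _ _).trans ?_
    calc ∑ x, |p x * F γ x| ≤ ∑ x, p x * M := Finset.sum_le_sum fun x _ => by
          rw [abs_mul, abs_of_nonneg (hp x)]; exact mul_le_mul_of_nonneg_left (hFb γ x) (hp x)
      _ = M := by rw [← Finset.sum_mul, hp1, one_mul]
  have hi3 : Integrable (fun γ => (∑ x, p x * F γ x) * ∑ x, p x * F γ x) π :=
    integrable_bdd (C := M * M) (hS1m.mul hS1m) fun γ => by
      rw [abs_mul]
      exact mul_le_mul (hS1b γ) (hS1b γ) (abs_nonneg _) ((abs_nonneg _).trans (hS1b γ))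
  have hi4 : Integrable (fun γ => Real.log (∑ x, p x * Real.exp (F γ x))) π :=
    integrable_bdd (Finset.measurable_sum _ fun x _ => (hFm x).exp.const_mul _).log
      fun γ => abs_log_sum_exp_le hp hp1 (hFb γ)
  have hlow := integral_mono (μ := π)
    (f := fun γ => (∑ x, p x * F γ x) + 1 / 2 * (∑ x, p x * (F γ x * F γ x)) -
        1 / 2 * ((∑ x, p x * F γ x) * ∑ x, p x * F γ x) - 20 * M ^ 3)
    (((hi1.add (hi2.const_mul _)).sub (hi3.const_mul _)).sub (integrable_const _)) hi4
    fun γ => second_order hp hp1 (hFb γ) hM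
  rw [integral_sub (f := fun γ => (∑ x, p x * F γ x) + 1 / 2 * (∑ x, p x * (F γ x * F γ x)) -
      1 / 2 * ((∑ x, p x * F γ x) * ∑ x, p x * F γ x))
      ((hi1.add (hi2.const_mul _)).sub (hi3.const_mul _)) (integrable_const _),
    integral_sub (f := fun γ => (∑ x, p x * F γ x) + 1 / 2 * (∑ x, p x * (F γ x * F γ x)))
      (hi1.add (hi2.const_mul _)) (hi3.const_mul _),
    integral_add hi1 (hi2.const_mul _), integral_const_mul, integral_const_mul, e1, e2, e3] at hlow
  rw [integral_add (integrable_const _) hi4]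
  simp only [integral_const, probReal_univ, one_smul] at hlow ⊢
  linarith

variable (ν : Measure β) [IsProbabilityMeasure ν]

omit [IsProbabilityMeasure ν]

/-- The weights with a field, summed. -/
def fieldY (δ a : ℝ) (ρ : Fin (r + 1) → ℝ) (w : Conf P → (Fin r → β) → ℝ) (e : Fin N → ℝ)
    (η : Fin r → β × (Fin N → ℝ)) : ℝ :=
  ∑ σ, tens w (fieldZ δ a ρ e) σ η

lemma measurable_fieldY {C : ℝ} (δ a : ℝ) (ρ : Fin (r + 1) → ℝ) {w : Conf P → (Fin r → β) → ℝ}
    (hw : WBdd C w) : Measurable (Function.uncurry (fieldY δ a ρ w)) := by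
  have h1 : Measurable fun z : (Fin N → ℝ) × (Fin r → β × (Fin N → ℝ)) => fun i => (z.2 i).1 :=
    measurable_pi_lambda _ fun i => ((measurable_pi_apply i).comp measurable_snd).fst
  have h2 : Measurable fun z : (Fin N → ℝ) × (Fin r → β × (Fin N → ℝ)) =>
      (z.1, fun i => (z.2 i).2) :=
    measurable_fst.prodMk (measurable_pi_lambda _ fun i =>
      ((measurable_pi_apply i).comp measurable_snd).snd)
  have e : Function.uncurry (fieldY δ a ρ w) =
      fun z : (Fin N → ℝ) × (Fin r → β × (Fin N → ℝ)) =>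
        ∑ σ, (w σ fun i => (z.2 i).1) * fieldZ δ a ρ z.1 σ fun i => (z.2 i).2 := rfl
  rw [e]
  refine Finset.measurable_sum _ fun σ _ => Measurable.mul ?_ ?_
  · exact (hw σ).meas.comp h1
  · exact Measurable.comp
      (g := fun q : (Fin N → ℝ) × (Fin r → Fin N → ℝ) => fieldZ δ a ρ q.1 σ q.2)
      (f := fun z : (Fin N → ℝ) × (Fin r → β × (Fin N → ℝ)) => (z.1, fun i => (z.2 i).2))
      (measurable_fieldZ δ a ρ σ) h2

lemma bdd_fieldY {C δ a : ℝ} (ha : 0 ≤ a) (ρ : Fin (r + 1) → ℝ)
    {w : Conf P → (Fin r → β) → ℝ} (hw : WBdd C w) (e : Fin N → ℝ) :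
    Bdd (Fintype.card (Conf P) * C * Real.exp (Real.sqrt δ * (N * (fieldLen ρ * a))))
      (fieldY δ a ρ w e) := by
  have hW := bdd_sum hw
  refine ⟨mul_pos hW.pos (Real.exp_pos _), (measurable_fieldY δ a ρ hw).of_uncurry_left,
    fun η => ⟨?_, ?_⟩⟩
  · rw [mul_inv, ← Real.exp_neg]
    refine (mul_le_mul_of_nonneg_right (hW.mem fun i => (η i).1).1 (Real.exp_pos _).le).trans ?_
    simp only [fieldY, Finset.sum_mul]
    exact Finset.sum_le_sum fun σ _ => mul_le_mul_of_nonneg_left
      (Real.exp_le_exp.2 (abs_le.1 (abs_fieldX_le ha ρ e σ _)).1) ((hw σ).gt_zero _).le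
  · refine le_trans ?_ (mul_le_mul_of_nonneg_right (hW.mem fun i => (η i).1).2 (Real.exp_pos _).le)
    simp only [fieldY, Finset.sum_mul]
    exact Finset.sum_le_sum fun σ _ => mul_le_mul_of_nonneg_left
      (Real.exp_le_exp.2 (abs_le.1 (abs_fieldX_le ha ρ e σ _)).2) ((hw σ).gt_zero _).le

variable [IsProbabilityMeasure ν]

lemma field_fin {m : Fin r → ℝ} {ρ : Fin (r + 1) → ℝ} (hρ : Monotone ρ) (hρ0 : 0 ≤ ρ 0)
    {δ a C : ℝ} (hδ : 0 ≤ δ) (ha : 0 ≤ a) {w : Conf P → (Fin r → β) → ℝ} (hw : WBdd C w)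
    (hN : N ≠ 0) (hM : Real.sqrt δ * (N * (fieldLen ρ * a)) ≤ 1 / 10) {n : Fin r → ℕ} (hn : ∀ i, 0 < n i) :
    ∫ t, Real.log (cascMean m n (fun η => ∑ σ, w σ η) t) ∂cascLaw ν r n + svar a * δ / 2 *
        (N * ρ (Fin.last r) -
          N * ∑ i, ∫ t, ∑ c, comp m n ρ (fun η => ∑ σ, w σ η) (mag w i) t c ^ 2 ∂cascLaw ν r n) -
        20 * (Real.sqrt δ * (N * (fieldLen ρ * a))) ^ 3 ≤
      ∫ e, ∫ t, Real.log (cascMean m n (fieldY δ a ρ w e) t) ∂cascLaw (ν.prod (gam (Fin N))) r n
        ∂gam (Fin N) := by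
  set M := Real.sqrt δ * (N * (fieldLen ρ * a))
  set W : (Fin r → β) → ℝ := fun η => ∑ σ, w σ η
  have hW : Bdd (Fintype.card (Conf P) * C) W := bdd_sum hw
  set H : (Fin N → ℝ) × CascTree (β × (Fin N → ℝ)) r n → ℝ := fun z =>
    Real.log (cascMean m n (fieldY δ a ρ w z.1) z.2)
  have hHm : Measurable H :=
    ((measurable_cascSum_param m n (measurable_fieldY δ a ρ hw)).div (measurable_cascSum_param m n
      (Y := fun _ _ => (1 : ℝ)) measurable_const)).log
  have hH : Integrable H ((gam (Fin N)).prod (cascLaw (ν.prod (gam (Fin N))) r n)) := by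
    refine Integrable.of_bound hHm.aestronglyMeasurable
      |Real.log (Fintype.card (Conf P) * C * Real.exp M)| ?_
    filter_upwards [Measure.quasiMeasurePreserving_snd.ae
      (ae_good (ν.prod (gam (Fin N))) r n)] with z hz
    exact abs_log_cascMean_le (bdd_fieldY ha ρ hw z.1) m n hz
  have hmp := mp_rootAtt ν (gam (Fin N)) r n
  have hcomp : Integrable (fun z : CascTree β r n × (Option (Node r n) → Fin N → ℝ) =>
      H (z.2 none, att r n (z.1, fun c => z.2 (some c))))
      ((cascLaw ν r n).prod (Measure.pi fun _ => gam (Fin N))) :=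
    hmp.integrable_comp_of_integrable hH
  have hiW : Integrable (fun t => Real.log (cascMean m n W t)) (cascLaw ν r n) :=
    Integrable.of_bound ((measurable_cascSum m n hW.meas).div
      (measurable_cascSum m n measurable_const)).log.aestronglyMeasurable
      |Real.log (Fintype.card (Conf P) * C)|
      ((ae_good ν r n).mono fun t ht => abs_log_cascMean_le hW m n ht)
  have hiC : ∀ i, Integrable (fun t => ∑ c, comp m n ρ W (mag w i) t c ^ 2) (cascLaw ν r n) :=
    fun i => integrable_sumSq ν hn ρ hW (measurable_mag hw i)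
      fun η => (abs_mag_le hw i η).trans (hW.mem η).2
  rw [← integral_prod H hH, ← integral_mp hmp hHm, integral_prod _ hcomp,
    ← integral_finsetSum _ fun i _ => hiC i]
  have hiS := integrable_finsetSum Finset.univ fun i (_ : i ∈ Finset.univ) => hiC i
  have hsub : Integrable (fun t => svar a * δ / 2 * (N * ρ (Fin.last r) -
      N * ∑ i, ∑ c, comp m n ρ W (mag w i) t c ^ 2)) (cascLaw ν r n) :=
    ((integrable_const _).sub (hiS.const_mul _)).const_mul _
  have := integral_mono_ae (μ := cascLaw ν r n)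
    (f := fun t => Real.log (cascMean m n W t) + svar a * δ / 2 * (N * ρ (Fin.last r) -
      N * ∑ i, ∑ c, comp m n ρ W (mag w i) t c ^ 2) - 20 * M ^ 3)
    ((hiW.add hsub).sub (integrable_const _)) hcomp.integral_prod_left
    ((ae_good ν r n).mono fun t ht => field_tree hρ hρ0 hδ ha hw hN hM hn ht)
  rw [integral_sub (f := fun t => Real.log (cascMean m n W t) + svar a * δ / 2 *
      (N * ρ (Fin.last r) - N * ∑ i, ∑ c, comp m n ρ W (mag w i) t c ^ 2))
      (hiW.add hsub) (integrable_const _), integral_add hiW hsub, integral_const_mul,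
    integral_sub (integrable_const _) (hiS.const_mul _)] at this
  simp only [integral_const_mul] at this
  simp only [integral_const, probReal_univ, one_smul] at this
  exact this

/-- Inserting a small field. -/
theorem fieldStep (hT : TiltFactorStmt) {m : Fin r → ℝ} (hm : Exps m) {ρ : Fin (r + 1) → ℝ}
    (hρ : Monotone ρ) (hρ0 : 0 ≤ ρ 0) {δ a C : ℝ} (hδ : 0 ≤ δ) (ha : 0 ≤ a)
    {w : Conf P → (Fin r → β) → ℝ} (hw : WBdd C w)
    (hN : N ≠ 0) (hM : Real.sqrt δ * (N * (fieldLen ρ * a)) ≤ 1 / 10) :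
    Phi ν m w + svar a * δ / 2 * (N * (ρ (Fin.last r) -
          ∑ p : Fin (r + 1), weight m p * (ρ p * bVal ν m w p))) -
        20 * (Real.sqrt δ * (N * (fieldLen ρ * a))) ^ 3 ≤
      ∫ e, Phi (ν.prod (gam (Fin N))) m (tens w (fieldZ δ a ρ e)) ∂gam (Fin N) := by
  set M := Real.sqrt δ * (N * (fieldLen ρ * a))
  set W : (Fin r → β) → ℝ := fun η => ∑ σ, w σ η
  have hW : Bdd (Fintype.card (Conf P) * C) W := bdd_sum hw
  have limR := tendsto_integral_logMean (ν := ν.prod (gam (Fin N))) (gam (Fin N)) hm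
    (measurable_fieldY δ a ρ hw) (bdd_fieldY ha ρ hw)
  have limW := cascadeLog β ν r m hm.pos hm.lt_one hm.mono W _ hW.pos hW.meas hW.mem
  have limS := tendsto_finsetSum Finset.univ fun i (_ : i ∈ Finset.univ) =>
    tendsto_sumSq hT ν hm hρ hρ0 hW (measurable_mag hw i) hW.pos.le
      fun η => (abs_mag_le hw i η).trans (hW.mem η).2
  have eS : ∑ i, ∑ p : Fin (r + 1), weight m p * (ρ p * pairM ν m W (mag w i) (mag w i) p) =
      ∑ p : Fin (r + 1), weight m p * (ρ p * bVal ν m w p) := by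
    rw [Finset.sum_comm]
    refine Finset.sum_congr rfl fun p _ => ?_
    rw [← Finset.mul_sum, ← Finset.mul_sum, bVal]
  rw [eS] at limS
  have limL := ((limW.add (((limS.const_mul (N : ℝ)).const_sub ((N : ℝ) * ρ (Fin.last r))).const_mul
    (svar a * δ / 2))).sub_const (20 * M ^ 3))
  rw [← mul_sub] at limL
  have := cascFilter_neBot r
  exact le_of_tendsto_of_tendsto limL limR
    ((eventually_pos r).mono fun n hn => field_fin ν hρ hρ0 hδ ha hw hN hM hn)

end Vale.Agent.P157.Parisi.Sphere.Up
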