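import Vale.Agent.P157.Parisi.Sphere.Statements
import Vale.Agent.P157.Polar

/-!
Finite partitions of the sphere, and the existence of discretisations.
-/

noncomputable section

open MeasureTheory ProbabilityTheory Filter
open scoped BigOperators Topology

namespace Vale.Agent.P157.Parisi.Sphere.Up

/-- A finite family of unit vectors with weights approximating the uniform law of the sphere. -/
structure Cells (N : ℕ) (tol : ℝ) where
  K : ℕ
  pos : 0 < K
  u : Fin K → Fin N → ℝ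
  p : Fin K → ℝ
  π : (Fin N → ℝ) → Fin N → ℝ
  norm_one : ∀ σ, ∑ i, u σ i ^ 2 = 1
  ne_zero : ∀ σ i, u σ i ≠ 0
  p_pos : ∀ σ, 0 < p σ
  meas : Measurable π
  near : ∀ᵐ x ∂sphereLaw N,
    Real.sqrt (∑ i, (π x i - x i / Real.sqrt N) ^ 2) ≤ tol ∧ ∃ σ, π x = u σ
  integral_eq : ∀ φ : (Fin N → ℝ) → ℝ, ∫ x, φ (π x) ∂sphereLaw N = ∑ σ, p σ * φ (u σ)

lemma isProb_sphere {N : ℕ} (hN : 0 < N) : IsProbabilityMeasure (sphereLaw N) := by
  rw [sphereLaw_eq hN]
  exact Measure.isProbabilityMeasure_map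
    (measurable_pi_lambda _ fun i =>
      ((measurable_pi_apply i).comp measurable_dir).const_mul _).aemeasurable

lemma ae_sphere {N : ℕ} (hN : 0 < N) : ∀ᵐ x ∂sphereLaw N,
    (∀ i, x i / Real.sqrt N ≠ 0) ∧ ∑ i, (x i / Real.sqrt N) ^ 2 = 1 := by
  have hS : MeasurableSet {x : Fin N → ℝ |
      (∀ i, x i / Real.sqrt N ≠ 0) ∧ ∑ i, (x i / Real.sqrt N) ^ 2 = 1} := by
    rw [Set.ofPred_and, Set.ofPred_forall]
    exact (MeasurableSet.iInter fun i => (measurableSet_eq_fun
      ((measurable_pi_apply i).div_const _) measurable_const).compl).inter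
      (measurableSet_eq_fun (by fun_prop) measurable_const)
  have hTm : Measurable fun (y : Fin N → ℝ) i => Real.sqrt N * dir y i :=
    measurable_pi_lambda _ fun i => ((measurable_pi_apply i).comp measurable_dir).const_mul _
  rw [sphereLaw_eq hN, ae_map_iff hTm.aemeasurable hS]
  have hne : ∀ᵐ y ∂gam (Fin N), ∀ i, y i ≠ 0 := by
    rw [ae_all_iff]
    intro i
    have hp : NullSingletonClass (gaussianReal 0 1) := nullSingletonClass_gaussianReal one_ne_zero
    have h0 : ∀ᵐ x ∂gaussianReal 0 1, x ≠ 0 := by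
      rw [ae_iff]; simp
    exact (measurePreserving_eval (fun _ : Fin N => gaussianReal 0 1)
      i).quasiMeasurePreserving.ae h0
  filter_upwards [hne] with y hy
  have hs : Real.sqrt (N : ℝ) ≠ 0 := by positivity
  have hpos : 0 < ∑ i, y i ^ 2 := Finset.sum_pos' (fun i _ => sq_nonneg _)
    ⟨⟨0, hN⟩, Finset.mem_univ _, by have := hy ⟨0, hN⟩; positivity⟩
  have hn : nrm y ≠ 0 := (Real.sqrt_pos.2 hpos).ne'
  have e : ∀ i, Real.sqrt N * dir y i / Real.sqrt N = y i / nrm y := fun i => by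
    simp only [dir]; field_simp
  simp only [e]
  refine ⟨fun i => div_ne_zero (hy i) hn, ?_⟩
  simp only [div_pow, ← Finset.sum_div, nrm, Real.sq_sqrt hpos.le]
  exact div_self hpos.ne'

/-- Partitions of the sphere into small cells. -/
theorem exists_cells {N : ℕ} (hN : 0 < N) {tol : ℝ} (ht : 0 < tol) : Nonempty (Cells N tol) := by
  classical
  have := isProb_sphere hN
  obtain ⟨m, hm⟩ := exists_nat_gt (Real.sqrt N / tol)
  have hm0 : (0 : ℝ) < m := lt_of_le_of_lt (by positivity) hm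
  set μ := sphereLaw N
  let nv : (Fin N → ℝ) → Fin N → ℝ := fun x i => x i / Real.sqrt N
  let idx : (Fin N → ℝ) → (Fin N → ℤ) := fun x i => ⌊(m : ℝ) * nv x i⌋
  have hidx : Measurable idx := measurable_pi_lambda _ fun i =>
    Int.measurable_floor.comp (((measurable_pi_apply i).div_const _).const_mul _)
  let good : (Fin N → ℝ) → Prop := fun x => (∀ i, nv x i ≠ 0) ∧ ∑ i, nv x i ^ 2 = 1
  have hgood : ∀ᵐ x ∂μ, good x := ae_sphere hN
  let S : Finset (Fin N → ℤ) := Fintype.piFinset fun _ => Finset.Icc (-(m : ℤ)) m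
  let T : Finset (Fin N → ℤ) := S.filter fun j => μ (idx ⁻¹' {j}) ≠ 0
  have hS : ∀ x, good x → idx x ∈ S := fun x hx => by
    refine Fintype.mem_piFinset.2 fun i => Finset.mem_Icc.2 ?_
    have h1 : |nv x i| ≤ 1 := by
      rw [← sq_le_one_iff_abs_le_one, ← hx.2]
      exact Finset.single_le_sum (f := fun i => nv x i ^ 2) (fun _ _ => sq_nonneg _)
        (Finset.mem_univ i)
    obtain ⟨a, b⟩ := abs_le.1 h1
    constructor
    · rw [Int.le_floor]; push_cast; nlinarith
    · refine Int.le_of_lt_add_one (Int.floor_lt.2 ?_)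
      push_cast; nlinarith
  have hT : ∀ᵐ x ∂μ, idx x ∈ T := by
    have hnull : ∀ᵐ x ∂μ, ∀ j : Fin N → ℤ, μ (idx ⁻¹' {j}) = 0 → idx x ≠ j := by
      rw [ae_all_iff]
      intro j
      by_cases hj : μ (idx ⁻¹' {j}) = 0
      · filter_upwards [measure_eq_zero_iff_ae_notMem.1 hj] with x hx _ using hx
      · exact Eventually.of_forall fun x h => absurd h hj
    filter_upwards [hgood, hnull] with x hx hx'
    exact Finset.mem_filter.2 ⟨hS x hx, fun h => hx' _ h rfl⟩
  have hne : ∀ j ∈ T, ∃ x, good x ∧ idx x = j := fun j hj => by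
    by_contra hcon
    push Not at hcon
    refine (Finset.mem_filter.1 hj).2 (measure_mono_null (fun x hx => ?_) (ae_iff.1 hgood))
    exact fun hg => hcon x hg hx
  choose! rep hrep using hne
  let z0 : Fin N → ℝ := fun _ => 0
  let R : (Fin N → ℤ) → Fin N → ℝ := fun j => if j ∈ T then nv (rep j) else z0
  have hRm : Measurable R := measurable_of_countable _
  let e := T.equivFin
  have hπ : ∀ φ : (Fin N → ℝ) → ℝ, ∫ x, φ (R (idx x)) ∂μ =
      ∑ σ, μ.real (idx ⁻¹' {(e.symm σ).1}) * φ (nv (rep (e.symm σ).1)) := by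
    intro φ
    have hae : (fun x => φ (R (idx x))) =ᵐ[μ]
        fun x => ∑ j ∈ T, (idx ⁻¹' {j}).indicator (fun _ => φ (nv (rep j))) x := by
      filter_upwards [hT] with x hx
      rw [Finset.sum_eq_single (idx x)]
      · simp [R, hx]
      · intro j _ hj
        exact Set.indicator_of_notMem (fun h => hj h.symm) _
      · exact fun h => absurd hx h
    rw [integral_congr_ae hae, integral_finsetSum _ fun j _ =>
      (integrable_const _).indicator (hidx (measurableSet_singleton j))]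
    have : ∀ j ∈ T, ∫ x, (idx ⁻¹' {j}).indicator (fun _ => φ (nv (rep j))) x ∂μ =
        μ.real (idx ⁻¹' {j}) * φ (nv (rep j)) := fun j _ => by
      rw [integral_indicator_const _ (hidx (measurableSet_singleton j)), smul_eq_mul]
    rw [Finset.sum_congr rfl this, ← Finset.sum_coe_sort T
      fun j => μ.real (idx ⁻¹' {j}) * φ (nv (rep j))]
    exact (e.symm.sum_comp fun j : T => μ.real (idx ⁻¹' {j.1}) * φ (nv (rep j.1))).symm
  have hK : 0 < T.card := by
    refine Finset.card_pos.2 ?_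
    obtain ⟨x, hx⟩ := hT.exists
    exact ⟨_, hx⟩
  refine ⟨⟨T.card, hK, fun σ => nv (rep (e.symm σ).1), fun σ => μ.real (idx ⁻¹' {(e.symm σ).1}),
    fun x => R (idx x), fun σ => (hrep _ (e.symm σ).2).1.2, fun σ => (hrep _ (e.symm σ).2).1.1,
    fun σ => ?_, hRm.comp hidx, ?_, hπ⟩⟩
  · exact lt_of_le_of_ne measureReal_nonneg (Ne.symm fun h =>
      (Finset.mem_filter.1 (e.symm σ).2).2 ((measureReal_eq_zero_iff).1 h))
  · filter_upwards [hT] with x hx
    refine ⟨?_, e ⟨idx x, hx⟩, by simp [R, hx]⟩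
    simp only [R, hx, if_true]
    have hb : ∀ i, (nv (rep (idx x)) i - nv x i) ^ 2 ≤ (1 / (m : ℝ)) ^ 2 := fun i => by
      have e1 : idx (rep (idx x)) i = idx x i := congrFun (hrep _ hx).2 i
      have h2 := Int.abs_sub_lt_one_of_floor_eq_floor e1
      rw [← mul_sub, abs_mul, abs_of_pos hm0] at h2
      rw [← sq_abs (nv (rep (idx x)) i - nv x i)]
      refine pow_le_pow_left₀ (abs_nonneg _) ?_ 2
      rw [le_div_iff₀ hm0, mul_comm]
      exact h2.le
    calc Real.sqrt (∑ i, (nv (rep (idx x)) i - nv x i) ^ 2)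
        ≤ Real.sqrt (N * (1 / (m : ℝ)) ^ 2) :=
          Real.sqrt_le_sqrt ((Finset.sum_le_sum fun i _ => hb i).trans_eq (by simp))
      _ = Real.sqrt N / m := by
          rw [Real.sqrt_mul (Nat.cast_nonneg N), Real.sqrt_sq (by positivity), mul_one_div]
      _ ≤ tol := by
          rw [div_le_iff₀ hm0]
          rw [div_lt_iff₀ ht] at hm
          linarith

lemma Cells.sum_p {N : ℕ} {tol : ℝ} (hN : 0 < N) (c : Cells N tol) : ∑ σ, c.p σ = 1 := by
  have := isProb_sphere hN
  simpa using (c.integral_eq fun _ => 1).symm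

/-- Discretisations of the sphere exist. -/
theorem nets : NetsS := by
  classical
  have key : ∀ N : ℕ, ∃ P : Pts N, 0 < N → ∃ π : (Fin N → ℝ) → Fin N → ℝ, Measurable π ∧
      (∀ᵐ x ∂sphereLaw N,
        Real.sqrt (∑ i, (π x i - x i / Real.sqrt N) ^ 2) ≤ netTol N ∧ ∃ σ, π x = P.u σ) ∧
      ∀ φ : (Fin N → ℝ) → ℝ, Measurable φ → (∀ v, 0 ≤ φ v) →
        (1 - netTol N) * ∫ x, φ (π x) ∂sphereLaw N ≤ (∑ σ, φ (P.u σ)) / P.K ∧
          (∑ σ, φ (P.u σ)) / P.K ≤ (1 + netTol N) * ∫ x, φ (π x) ∂sphereLaw N := by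
    intro N
    rcases Nat.eq_zero_or_pos N with hN | hN
    · subst hN
      exact ⟨⟨1, one_pos, fun _ _ => 0, fun h => absurd h (lt_irrefl 0)⟩,
        fun h => absurd h (lt_irrefl 0)⟩
    have ht : 0 < netTol N := by unfold netTol; positivity
    obtain ⟨c⟩ := exists_cells hN ht
    set t := netTol N
    obtain ⟨M, hM⟩ := exists_nat_ge (∑ σ, 1 / (t * c.p σ))
    have hp := c.p_pos
    have hM' : ∀ σ, 1 ≤ (M : ℝ) * (t * c.p σ) := fun σ => by
      rw [← div_le_iff₀ (mul_pos ht (hp σ))]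
      exact (Finset.single_le_sum (f := fun σ => 1 / (t * c.p σ))
        (fun τ _ => (one_div_pos.2 (mul_pos ht (hp τ))).le) (Finset.mem_univ σ)).trans hM
    have hM0 : (0 : ℝ) < M := by
      obtain ⟨σ⟩ : Nonempty (Fin c.K) := ⟨⟨0, c.pos⟩⟩
      by_contra h
      have : (M : ℝ) = 0 := le_antisymm (not_lt.1 h) (Nat.cast_nonneg M)
      have h2 := hM' σ
      rw [this, zero_mul] at h2
      linarith
    let n : Fin c.K → ℕ := fun σ => ⌈(M : ℝ) * c.p σ⌉₊
    let I := (σ : Fin c.K) × Fin (n σ)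
    let e := Fintype.equivFin I
    have hn : ∀ σ, (M : ℝ) * c.p σ ≤ n σ := fun σ => Nat.le_ceil _
    have hn' : ∀ σ, (n σ : ℝ) ≤ M * c.p σ + 1 := fun σ =>
      (Nat.ceil_lt_add_one (mul_pos hM0 (hp σ)).le).le
    have hsum : (Fintype.card I : ℝ) = ∑ σ, (n σ : ℝ) := by simp [I]
    have hp1 := c.sum_p hN
    have hlow : (M : ℝ) ≤ Fintype.card I := by
      rw [hsum]
      calc (M : ℝ) = ∑ σ, (M : ℝ) * c.p σ := by rw [← Finset.mul_sum, hp1, mul_one]
        _ ≤ _ := Finset.sum_le_sum fun σ _ => hn σ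
    have hhigh : (Fintype.card I : ℝ) ≤ M * (1 + t) := by
      rw [hsum]
      calc ∑ σ, (n σ : ℝ) ≤ ∑ σ, ((M : ℝ) * c.p σ + M * (t * c.p σ)) :=
            Finset.sum_le_sum fun σ _ => (hn' σ).trans (by linarith [hM' σ])
        _ = M * (1 + t) := by
            rw [Finset.sum_add_distrib, ← Finset.mul_sum, ← Finset.mul_sum, ← Finset.mul_sum, hp1]
            ring
    have hI : 0 < Fintype.card I := by
      have := hM0.trans_le hlow
      exact_mod_cast this
    refine ⟨⟨Fintype.card I, hI, fun j => c.u (e.symm j).1, fun _ j => c.norm_one _⟩,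
      fun _ => ⟨c.π, c.meas, ?_, fun φ _ hφ => ?_⟩⟩
    · filter_upwards [c.near] with x hx
      obtain ⟨h1, σ, hσ⟩ := hx
      have hnpos : 0 < n σ := Nat.ceil_pos.2 (mul_pos hM0 (hp σ))
      exact ⟨h1, e ⟨σ, ⟨0, hnpos⟩⟩, by simp [hσ]⟩
    · have hs : ∑ j : Fin (Fintype.card I), φ (c.u (e.symm j).1) = ∑ σ, (n σ : ℝ) * φ (c.u σ) := by
        rw [e.symm.sum_comp fun i : I => φ (c.u i.1), Fintype.sum_sigma]
        simp
      rw [c.integral_eq φ]
      show (1 - t) * _ ≤ (∑ j : Fin (Fintype.card I), φ (c.u (e.symm j).1)) / _ ∧ _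
      rw [hs, le_div_iff₀ (Nat.cast_pos.2 hI), div_le_iff₀ (Nat.cast_pos.2 hI)]
      constructor
      · rcases le_or_gt 1 t with h1 | h1
        · refine le_trans (mul_nonpos_of_nonpos_of_nonneg (mul_nonpos_of_nonpos_of_nonneg
            (by linarith) (Finset.sum_nonneg fun σ _ => mul_nonneg (hp σ).le (hφ _)))
            (Nat.cast_nonneg _)) (Finset.sum_nonneg fun σ _ => mul_nonneg (Nat.cast_nonneg _) (hφ _))
        · calc (1 - t) * (∑ σ, c.p σ * φ (c.u σ)) * Fintype.card I
              ≤ (1 - t) * (∑ σ, c.p σ * φ (c.u σ)) * (M * (1 + t)) := by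
                refine mul_le_mul_of_nonneg_left hhigh (mul_nonneg (by linarith)
                  (Finset.sum_nonneg fun σ _ => mul_nonneg (hp σ).le (hφ _)))
            _ = (1 - t * t) * ∑ σ, (M : ℝ) * c.p σ * φ (c.u σ) := by
                simp only [mul_assoc, ← Finset.mul_sum]; ring
            _ ≤ 1 * ∑ σ, (M : ℝ) * c.p σ * φ (c.u σ) :=
                mul_le_mul_of_nonneg_right (by nlinarith)
                  (Finset.sum_nonneg fun σ _ => mul_nonneg (mul_pos hM0 (hp σ)).le (hφ _))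
            _ ≤ _ := by
                rw [one_mul]
                exact Finset.sum_le_sum fun σ _ => mul_le_mul_of_nonneg_right (hn σ) (hφ _)
      · calc ∑ σ, (n σ : ℝ) * φ (c.u σ) ≤ ∑ σ, (M : ℝ) * (1 + t) * (c.p σ * φ (c.u σ)) :=
              Finset.sum_le_sum fun σ _ => by
                rw [← mul_assoc]
                refine mul_le_mul_of_nonneg_right ((hn' σ).trans ?_) (hφ _)
                linarith [hM' σ]
          _ = (1 + t) * (∑ σ, c.p σ * φ (c.u σ)) * M := by rw [← Finset.mul_sum]; ring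
          _ ≤ _ := mul_le_mul_of_nonneg_left hlow (mul_nonneg (by linarith)
              (Finset.sum_nonneg fun σ _ => mul_nonneg (hp σ).le (hφ _)))
  choose P hP using key
  exact ⟨P, fun N hN => hP N hN⟩

end Vale.Agent.P157.Parisi.Sphere.Up
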