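import Vale.Agent.P157.Parisi.Upper.Convex
import Vale.Agent.P157.GardnerBound

/-!
The recursion with a quadratic top in closed form bounds many small clipped fields.
-/

noncomputable section

open MeasureTheory ProbabilityTheory Filter
open scoped BigOperators Topology

namespace Vale.Agent.P157.Parisi.Sphere.Up

open Vale.Agent.P157.Parisi.Up
open Vale.Agent.P168 (genNested)
open Vale.Agent.P168.Upper (integral_mp measurable_genNested genNested_bounds)

/-- The normalised sum of clipped variables. -/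
def csum {L : ℕ} (a : ℝ) (b : Fin L → ℝ) : ℝ := Real.sqrt (1 / L) * ∑ k, clipA a (b k)

lemma measurable_csum {L : ℕ} (a : ℝ) : Measurable (csum (L := L) a) :=
  (Finset.measurable_sum _ fun k _ =>
    (measurable_clipA a).comp (measurable_pi_apply k)).const_mul _

lemma abs_csum_le {L : ℕ} {a : ℝ} (ha : 0 ≤ a) (b : Fin L → ℝ) :
    |csum a b| ≤ Real.sqrt (1 / L) * (L * a) := by
  rw [csum, abs_mul, abs_of_nonneg (Real.sqrt_nonneg _)]
  exact mul_le_mul_of_nonneg_left ((Finset.abs_sum_le_sum_abs _ _).trans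
    ((Finset.sum_le_sum fun k _ => abs_clipA_le ha _).trans_eq (by simp))) (Real.sqrt_nonneg _)

/-- The square of a shifted Gaussian variable, exponentiated. -/
lemma integral_exp_lin_sq (u : ℝ) {c : ℝ} (hc : c < 1 / 2) :
    ∫ g, Real.exp (u * g + c * g ^ 2) ∂gaussianReal 0 1 =
      Real.exp (u ^ 2 / (2 * (1 - 2 * c)) - Real.log (1 - 2 * c) / 2) ∧
    Integrable (fun g => Real.exp (u * g + c * g ^ 2)) (gaussianReal 0 1) := by
  have h := Vale.Agent.P157.integral_exp_linear_quadratic (lam := 1 - 2 * c) (by linarith) u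
  have e : ∀ g : ℝ, u * g + (1 - (1 - 2 * c)) * g ^ 2 / 2 = u * g + c * g ^ 2 := fun g => by ring
  simpa only [e, gam1] using h

/-- Clipped sums are subgaussian. -/
lemma csum_mgf {L : ℕ} (hL : 0 < L) {a : ℝ} (ha : 0 ≤ a) (t : ℝ) :
    ∫ b, Real.exp (t * csum a b) ∂gam (Fin L) ≤ Real.exp (t ^ 2 / 2) := by
  have hg : Growth Real.exp 1 1 := ⟨Real.continuous_exp, zero_le_one, zero_le_one, fun z => by
    rw [one_mul, one_mul, Real.abs_exp]; exact Real.exp_le_exp.2 (le_abs_self z)⟩
  have h := clip_gauss convexOn_exp hg ha hL 0 t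
  simp only [zero_add] at h
  refine h.trans_eq ?_
  have := (integral_exp_lin_sq t (c := 0) (by norm_num)).1
  simpa using this

/-- The quadratic of a shifted clipped sum, exponentiated. -/
lemma csum_sq {L : ℕ} (hL : 0 < L) {a : ℝ} (ha : 0 ≤ a) {q : ℝ} (hq : 0 ≤ q) (x d : ℝ)
    (hqd : q * d ^ 2 < 1 / 2) :
    Integrable (fun b => Real.exp (q * (x + d * csum a b) ^ 2)) (gam (Fin L)) ∧
    ∫ b, Real.exp (q * (x + d * csum a b) ^ 2) ∂gam (Fin L) ≤
      Real.exp (q * x ^ 2 / (1 - 2 * (q * d ^ 2)) - Real.log (1 - 2 * (q * d ^ 2)) / 2) := by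
  set r := Real.sqrt (2 * q)
  set B := |x| + |d| * (Real.sqrt (1 / L) * (L * a))
  have hB : ∀ b : Fin L → ℝ, |x + d * csum a b| ≤ B := fun b => by
    refine (abs_add_le _ _).trans ?_
    rw [abs_mul]
    exact add_le_add le_rfl (mul_le_mul_of_nonneg_left (abs_csum_le ha b) (abs_nonneg _))
  have hlin : ∀ y, Real.exp (q * y ^ 2) = ∫ g, Real.exp (r * y * g) ∂gaussianReal 0 1 := fun y => by
    have h := (integral_exp_lin_sq (r * y) (c := 0) (by norm_num)).1
    simp only [zero_mul, add_zero, mul_zero, sub_zero, Real.log_one, zero_div, mul_one] at h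
    rw [h, mul_pow, Real.sq_sqrt (by linarith)]
    congr 1
    ring
  have hm : Measurable fun z : (Fin L → ℝ) × ℝ => Real.exp (r * (x + d * csum a z.1) * z.2) :=
    ((((((measurable_csum a).comp measurable_fst).const_mul d).const_add x).const_mul r).mul
      measurable_snd).exp
  have hb1 : Integrable (fun _ : Fin L → ℝ => (1 : ℝ)) (gam (Fin L)) := integrable_const _
  have hi : Integrable (fun z : (Fin L → ℝ) × ℝ => Real.exp (r * (x + d * csum a z.1) * z.2))
      ((gam (Fin L)).prod (gaussianReal 0 1)) := by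
    refine (hb1.mul_prod (Cavity.integrable_exp_abs (r * B))).mono' hm.aestronglyMeasurable
      (Eventually.of_forall fun z => ?_)
    rw [one_mul, Real.norm_eq_abs, Real.abs_exp]
    refine Real.exp_le_exp.2 ((le_abs_self _).trans ?_)
    rw [abs_mul, abs_mul, abs_of_nonneg (Real.sqrt_nonneg _)]
    exact mul_le_mul_of_nonneg_right (mul_le_mul_of_nonneg_left (hB _) (Real.sqrt_nonneg _))
      (abs_nonneg _)
  simp only [hlin]
  refine ⟨hi.integral_prod_left, ?_⟩
  rw [integral_integral_swap hi]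
  obtain ⟨hval, hint⟩ := integral_exp_lin_sq (r * x) hqd
  refine (integral_mono hi.integral_prod_right hint fun g => ?_).trans_eq ?_
  · have e : ∀ b : Fin L → ℝ, Real.exp (r * (x + d * csum a b) * g) =
        Real.exp (r * x * g) * Real.exp (r * d * g * csum a b) := fun b => by
      rw [← Real.exp_add]; congr 1; ring
    simp only [e]
    rw [integral_const_mul, Real.exp_add]
    refine mul_le_mul_of_nonneg_left ((csum_mgf hL ha _).trans_eq ?_) (Real.exp_pos _).le
    congr 1
    rw [mul_pow, mul_pow, Real.sq_sqrt (by linarith)]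
    ring
  · rw [hval, mul_pow, Real.sq_sqrt (by linarith)]
    congr 2
    field_simp

/-- The value of the recursion at depth zero with a quadratic top. -/
def quadConst {r : ℕ} (m : Fin r → ℝ) (D : Fin (r + 1) → ℝ) : ℝ :=
  ∑ i : Fin r, Real.log (D i.succ / D i.castSucc) / (2 * m i)

lemma quad_bounds {r L : ℕ} {a : ℝ} (ha : 0 ≤ a) (ρ : Fin (r + 1) → ℝ) {D : ℝ} (hD : 0 < D)
    (x : ℝ) (η : Fin r → Fin L → ℝ) :
    1 ≤ Real.exp ((x + siteExp a ρ η) ^ 2 / (2 * D)) ∧
      Real.exp ((x + siteExp a ρ η) ^ 2 / (2 * D)) ≤ Real.exp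
        ((|x| + Real.sqrt (1 / (L : ℝ)) * (L * ∑ p, Real.sqrt (inc ρ p) * a)) ^ 2 / (2 * D)) := by
  refine ⟨Real.one_le_exp (by positivity), Real.exp_le_exp.2 (div_le_div_of_nonneg_right ?_
    (by positivity))⟩
  rw [← sq_abs (x + siteExp a ρ η)]
  exact pow_le_pow_left₀ (abs_nonneg _)
    ((abs_add_le _ _).trans (add_le_add le_rfl (abs_siteExp_le ha ρ η))) 2

lemma measurable_quadCons {r L : ℕ} (a : ℝ) (ρ : Fin (r + 2) → ℝ) (D x : ℝ) :
    Measurable fun z : (Fin L → ℝ) × (Fin r → Fin L → ℝ) =>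
      Real.exp ((x + siteExp a ρ (Fin.cons z.1 z.2)) ^ 2 / (2 * D)) :=
  (((((measurable_siteExp a ρ).comp Vale.Agent.P168.Cascade.measurable_cons).const_add x).pow_const
    2).div_const _).exp

/-- Many small fields are below the quadratic recursion. -/
theorem quad_rec {L : ℕ} (hL : 0 < L) {a : ℝ} (ha : 0 ≤ a) : ∀ {r : ℕ} (m : Fin r → ℝ),
    (∀ i, 0 < m i) → ∀ (ρ D : Fin (r + 1) → ℝ), Monotone ρ → (∀ p, 0 < D p) →
      (∀ i : Fin r, D i.succ - D i.castSucc = m i * (ρ i.succ - ρ i.castSucc)) →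
      ∀ x, Real.log (genNested (gam (Fin L)) m
          fun η => Real.exp ((x + siteExp a ρ η) ^ 2 / (2 * D (Fin.last r)))) ≤
        x ^ 2 / (2 * D 0) + quadConst m D
  | 0, _, _, ρ, D, _, _, _, x => by
    simp [genNested, quadConst, siteExp, Real.log_exp]
  | r + 1, m, hm, ρ, D, hρ, hD, hstep, x => by
    set I : (Fin L → ℝ) → ℝ := fun b => genNested (gam (Fin L)) (Fin.tail m)
      fun η => Real.exp ((x + siteExp a ρ (Fin.cons b η)) ^ 2 / (2 * D (Fin.last (r + 1))))
    have hIm : Measurable I :=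
      measurable_genNested (gam (Fin L)) (Fin.tail m) _ (measurable_quadCons a ρ _ x)
    have hI1 : ∀ b, 1 ≤ I b := fun b =>
      (genNested_bounds (gam (Fin L)) (Fin.tail m) (fun i => hm i.succ)
        (fun η => Real.exp ((x + siteExp a ρ (Fin.cons b η)) ^ 2 / (2 * D (Fin.last (r + 1)))))
        ((measurable_quadCons a ρ _ x).comp (f := fun η : Fin r → Fin L → ℝ => (b, η))
          (measurable_const.prodMk measurable_id))
        (lo := 1) (hi := Real.exp ((|x| + Real.sqrt (1 / (L : ℝ)) *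
          (L * ∑ p, Real.sqrt (inc ρ p) * a)) ^ 2 / (2 * D (Fin.last (r + 1)))))
        one_pos fun η => quad_bounds ha ρ (hD _) x (Fin.cons b η)).1
    set μ := m 0
    set k := quadConst (Fin.tail m) (Fin.tail D)
    set δ := ρ 1 - ρ 0
    have hμ : 0 < μ := hm 0
    have hδ : 0 ≤ δ := sub_nonneg.2 (hρ (Fin.zero_le _))
    have hD0 := hD 0
    have hD1 := hD 1
    have hgap : D 1 - D 0 = μ * δ := by simpa using hstep 0
    have hI : ∀ b, I b ≤ Real.exp ((x + Real.sqrt δ * csum a b) ^ 2 / (2 * D 1) + k) := fun b => by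
      have ih := quad_rec hL ha (Fin.tail m) (fun i => hm i.succ) (Fin.tail ρ) (Fin.tail D)
        (fun i j hij => hρ (Fin.succ_le_succ_iff.2 hij)) (fun p => hD _)
        (fun i => by
          have := hstep i.succ
          rw [← Fin.succ_castSucc] at this
          exact this)
        (x + Real.sqrt δ * csum a b)
      have e : Fin.tail D 0 = D 1 := rfl
      have e' : Fin.tail D (Fin.last r) = D (Fin.last (r + 1)) := by simp [Fin.tail]
      rw [e, e'] at ih
      simp only [δ, csum, add_assoc, ← siteExp_cons] at ih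
      simp only [add_assoc, δ, csum]
      exact (Real.log_le_iff_le_exp (one_pos.trans_le (hI1 b))).1 ih
    set q := μ / (2 * D 1)
    have hqd : q * Real.sqrt δ ^ 2 < 1 / 2 := by
      rw [Real.sq_sqrt hδ, div_mul_eq_mul_div, div_lt_iff₀ (by positivity)]
      linarith
    have hq2 : 1 - 2 * (q * Real.sqrt δ ^ 2) = D 0 / D 1 := by
      rw [Real.sq_sqrt hδ, eq_div_iff hD1.ne']
      simp only [q]
      field_simp
      linarith
    obtain ⟨hJi, hJ⟩ := csum_sq hL ha (by positivity : 0 ≤ q) x (Real.sqrt δ) hqd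
    rw [hq2] at hJ
    have hI0 : ∀ b, 0 ≤ I b := fun b => zero_le_one.trans (hI1 b)
    have hpow : ∀ b, I b ^ μ ≤
        Real.exp (μ * k) * Real.exp (q * (x + Real.sqrt δ * csum a b) ^ 2) := fun b => by
      refine (Real.rpow_le_rpow (hI0 b) (hI b) hμ.le).trans_eq ?_
      rw [← Real.exp_mul, ← Real.exp_add]
      congr 1
      simp only [q]
      ring
    have hIi : Integrable (fun b => I b ^ μ) (gam (Fin L)) :=
      (hJi.const_mul (Real.exp (μ * k))).mono' (hIm.pow_const _).aestronglyMeasurable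
        (Eventually.of_forall fun b => by
          rw [Real.norm_eq_abs, abs_of_nonneg (Real.rpow_nonneg (hI0 b) _)]
          exact hpow b)
    have hpos : 0 < ∫ b, I b ^ μ ∂gam (Fin L) := by
      refine zero_lt_one.trans_le ?_
      simpa using integral_mono (integrable_const _) hIi fun b =>
        Real.one_le_rpow (hI1 b) hμ.le
    have hle : Real.log (∫ b, I b ^ μ ∂gam (Fin L)) ≤
        μ * k + (q * x ^ 2 / (D 0 / D 1) - Real.log (D 0 / D 1) / 2) := by
      rw [Real.log_le_iff_le_exp hpos, Real.exp_add]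
      refine (integral_mono hIi (hJi.const_mul _) hpow).trans ?_
      rw [integral_const_mul]
      exact mul_le_mul_of_nonneg_left hJ (Real.exp_pos _).le
    show Real.log ((∫ b, I b ^ μ ∂gam (Fin L)) ^ (1 / μ)) ≤ _
    rw [Real.log_rpow hpos]
    refine (mul_le_mul_of_nonneg_left hle (one_div_pos.2 hμ).le).trans_eq ?_
    have hk : quadConst m D = Real.log (D 1 / D 0) / (2 * μ) + k := by
      simp only [quadConst, Fin.sum_univ_succ, k, Fin.tail, Fin.succ_castSucc, Fin.castSucc_zero]
      rfl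
    rw [hk, ← inv_div (D 0) (D 1), Real.log_inv]
    simp only [q]
    field_simp
    ring

end Vale.Agent.P157.Parisi.Sphere.Up
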