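import Vale.Agent.P157.Parisi.Sphere.Upper.Step
import Vale.Agent.P157.Parisi.Sphere.Upper.Quad
import Vale.Agent.P157.Parisi.Sphere.Upper.Cells
import Vale.Agent.P157.Parisi.Upper.Site

/-!
All fields at once on the cells of the sphere: the Gaussian comparison of the direction and the
quadratic recursion bound them by the site value of the sphere.
-/

noncomputable section

open MeasureTheory ProbabilityTheory Filter
open scoped BigOperators Topology

namespace Vale.Agent.P157.Parisi.Sphere.Up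

open Vale.Agent.P157.Parisi.Up
open Vale.Agent.P168 (genNested)
open Vale.Agent.P168.Cascade
open Vale.Agent.P168.Upper (integral_mp mp_flip measurable_genNested genNested_map genNested_prod
  genNested_one genNested_bounds genNested_const_mul genNested_nonneg)

variable {r N : ℕ} {P : Pts N}

/-- The product of `j` field weights. -/
def fieldsW {j : ℕ} (δ a : ℝ) (ρ : Fin (r + 1) → ℝ) (E : Fin j → Fin N → ℝ) (σ : Conf P)
    (η : Fin r → Fin j → Fin N → ℝ) : ℝ :=
  Real.exp (∑ k, fieldX δ a ρ (E k) σ fun p => η p k)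

lemma measurable_fieldsW {j : ℕ} (δ a : ℝ) (ρ : Fin (r + 1) → ℝ) (σ : Conf P) :
    Measurable fun z : (Fin j → Fin N → ℝ) × (Fin r → Fin j → Fin N → ℝ) =>
      fieldsW δ a ρ z.1 σ z.2 := by
  simp only [fieldsW, Real.exp_sum]
  refine Finset.measurable_prod _ fun k _ => ?_
  exact Measurable.comp (g := fun q : (Fin N → ℝ) × (Fin r → Fin N → ℝ) => fieldZ δ a ρ q.1 σ q.2)
    (f := fun z : (Fin j → Fin N → ℝ) × (Fin r → Fin j → Fin N → ℝ) => (z.1 k, fun p => z.2 p k))
    (measurable_fieldZ δ a ρ σ)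
    (((measurable_pi_apply k).comp measurable_fst).prodMk (measurable_pi_lambda _ fun p =>
      (measurable_pi_apply k).comp ((measurable_pi_apply p).comp measurable_snd)))

variable {β : Type} [MeasurableSpace β]

lemma wbdd_fields {j : ℕ} {C δ a : ℝ} (ha : 0 ≤ a) (ρ : Fin (r + 1) → ℝ)
    {w : Conf P → (Fin r → β) → ℝ} (hw : WBdd C w) (E : Fin j → Fin N → ℝ) :
    WBdd (C * Real.exp (j * fieldM δ a N ρ)) (tens w (fieldsW δ a ρ E)) := fun σ => by
  have hb : ∀ η : Fin r → Fin j → Fin N → ℝ,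
      |∑ k, fieldX δ a ρ (E k) σ (fun p => η p k)| ≤ j * fieldM δ a N ρ := fun η =>
    (Finset.abs_sum_le_sum_abs _ _).trans
      ((Finset.sum_le_sum fun k _ => abs_fieldX_le ha ρ (E k) σ _).trans_eq (by simp [fieldM]))
  refine ⟨mul_pos (hw σ).pos (Real.exp_pos _), ?_, fun η => ⟨?_, ?_⟩⟩
  · refine Measurable.mul ((hw σ).meas.comp (measurable_pi_lambda _ fun i =>
      (measurable_pi_apply i).fst)) ?_
    exact Measurable.comp
      (g := fun q : (Fin j → Fin N → ℝ) × (Fin r → Fin j → Fin N → ℝ) => fieldsW δ a ρ q.1 σ q.2)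
      (f := fun η : Fin r → β × (Fin j → Fin N → ℝ) => (E, fun i => (η i).2))
      (measurable_fieldsW δ a ρ σ)
      (measurable_const.prodMk (measurable_pi_lambda _ fun i => (measurable_pi_apply i).snd))
  · rw [mul_inv, ← Real.exp_neg]
    exact mul_le_mul ((hw σ).mem _).1 (Real.exp_le_exp.2 (abs_le.1 (hb _)).1) (Real.exp_pos _).le
      ((hw σ).gt_zero _).le
  · exact mul_le_mul ((hw σ).mem _).2 (Real.exp_le_exp.2 (abs_le.1 (hb _)).2) (Real.exp_pos _).le
      (hw σ).pos.le

lemma measW_fields {j : ℕ} (δ a : ℝ) (ρ : Fin (r + 1) → ℝ) {Prm : Type} [MeasurableSpace Prm]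
    {W : Prm → Conf P → (Fin r → β) → ℝ} (hW : MeasW W) :
    MeasW fun (z : Prm × (Fin j → Fin N → ℝ)) => tens (W z.1) (fieldsW δ a ρ z.2) := fun σ => by
  refine Measurable.mul ?_ ?_
  · exact Measurable.comp (g := fun q : Prm × (Fin r → β) => W q.1 σ q.2)
      (f := fun z : (Prm × (Fin j → Fin N → ℝ)) × (Fin r → β × (Fin j → Fin N → ℝ)) =>
        (z.1.1, fun i => (z.2 i).1)) (hW σ)
      ((measurable_fst.comp measurable_fst).prodMk
        (measurable_pi_lambda _ fun i => ((measurable_pi_apply i).comp measurable_snd).fst))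
  · exact Measurable.comp
      (g := fun q : (Fin j → Fin N → ℝ) × (Fin r → Fin j → Fin N → ℝ) => fieldsW δ a ρ q.1 σ q.2)
      (f := fun z : (Prm × (Fin j → Fin N → ℝ)) × (Fin r → β × (Fin j → Fin N → ℝ)) =>
        (z.1.2, fun i => (z.2 i).2)) (measurable_fieldsW δ a ρ σ)
      ((measurable_snd.comp measurable_fst).prodMk
        (measurable_pi_lambda _ fun i => ((measurable_pi_apply i).comp measurable_snd).snd))

/-- The recursion of the fields, unrolled. -/
theorem fields_eq {δ a : ℝ} (ha : 0 ≤ a) {m : Fin r → ℝ} (hm : Exps m) (ρ : Fin (r + 1) → ℝ) :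
    ∀ (j : ℕ) (β : Type) [MeasurableSpace β] (ν : Measure β) [IsProbabilityMeasure ν] (C : ℝ)
      (w : Conf P → (Fin r → β) → ℝ), WBdd C w →
      fields δ a m ρ j β ν w = ∫ E, Phi (ν.prod (Measure.pi fun _ : Fin j => gam (Fin N))) m
        (tens w (fieldsW δ a ρ E)) ∂(Measure.pi fun _ : Fin j => gam (Fin N))
  | 0, β, _, ν, _, C, w, hw => by
    have e : ∀ E : Fin 0 → Fin N → ℝ,
        Phi (ν.prod (Measure.pi fun _ : Fin 0 => gam (Fin N))) m (tens w (fieldsW δ a ρ E)) =
          Phi ν m w := fun E => by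
      simp only [Phi]
      congr 1
      rw [← genNested_map (ν.prod (Measure.pi fun _ : Fin 0 => gam (Fin N))) ν
        measurePreserving_fst m (fun η => ∑ σ, w σ η) (bdd_sum hw).meas]
      congr 1
      funext η
      simp [tens, fieldsW]
    simp only [e, fields, integral_const, probReal_univ, one_smul]
  | j + 1, β, _, ν, _, C, w, hw => by
    set P1 := Measure.pi fun _ : Fin (j + 1) => gam (Fin N)
    set P0 := Measure.pi fun _ : Fin j => gam (Fin N)
    have hsplit := measurePreserving_piFinSuccAbove (fun _ : Fin (j + 1) => gam (Fin N)) 0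
    have hmap : MeasurePreserving
        (fun z : β × (Fin (j + 1) → Fin N → ℝ) => ((z.1, z.2 0), fun k : Fin j => z.2 k.succ))
        (ν.prod P1) ((ν.prod (gam (Fin N))).prod P0) :=
      (measurePreserving_prodAssoc ν (gam (Fin N)) P0).symm.comp
        ((MeasurePreserving.id ν).prod hsplit)
    let Wj : (Fin N → ℝ) × (Fin j → Fin N → ℝ) →
        Conf P → (Fin r → (β × (Fin N → ℝ)) × (Fin j → Fin N → ℝ)) → ℝ :=
      fun z => tens (tens w (fieldZ δ a ρ z.1)) (fieldsW δ a ρ z.2)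
    let G : (Fin N → ℝ) × (Fin j → Fin N → ℝ) → ℝ := fun z =>
      Phi ((ν.prod (gam (Fin N))).prod P0) m (Wj z)
    have hWj : MeasW Wj := measW_fields δ a ρ (measW_field_const δ a ρ hw)
    have hWb : ∀ z, WBdd (C * Real.exp (fieldM δ a N ρ) * Real.exp (j * fieldM δ a N ρ)) (Wj z) :=
      fun z => wbdd_fields ha ρ (wbdd_field ha ρ hw z.1) z.2
    have hGm : Measurable G := measurable_Phi _ m hWj
    have hGi : Integrable G ((gam (Fin N)).prod P0) :=
      integrable_bdd hGm fun z => abs_Phi_le' _ hm (hWb z)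
    have e : ∀ E : Fin (j + 1) → Fin N → ℝ,
        Phi (ν.prod P1) m (tens w (fieldsW δ a ρ E)) = G (E 0, fun k => E k.succ) := fun E => by
      simp only [G, Phi]
      congr 1
      rw [← genNested_map (ν.prod P1) ((ν.prod (gam (Fin N))).prod P0) hmap m
        (fun η => ∑ σ, Wj (E 0, fun k => E k.succ) σ η) (bdd_sum (hWb _)).meas]
      congr 1
      funext η
      refine Finset.sum_congr rfl fun σ _ => ?_
      simp only [Wj, tens, fieldsW, fieldZ, Fin.sum_univ_succ, Real.exp_add]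
      ring
    calc fields δ a m ρ (j + 1) β ν w = ∫ e, ∫ E, G (e, E) ∂P0 ∂gam (Fin N) := by
          refine integral_congr_ae (Eventually.of_forall fun e => ?_)
          exact fields_eq ha hm ρ j (β × (Fin N → ℝ)) (ν.prod (gam (Fin N))) _ _
            (wbdd_field ha ρ hw e)
      _ = ∫ z, G z ∂(gam (Fin N)).prod P0 := (integral_prod _ hGi).symm
      _ = ∫ E, G (E 0, fun k => E k.succ) ∂P1 := (integral_mp hsplit hGm).symm
      _ = _ := by simp only [e]

/-- Nested means are monotone. -/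
theorem genNested_le {γ : Type} [MeasurableSpace γ] (μ : Measure γ) [IsProbabilityMeasure μ] :
    ∀ {r : ℕ} (m : Fin r → ℝ), (∀ i, 0 < m i) → ∀ (Y Z : (Fin r → γ) → ℝ) {hi : ℝ},
      Measurable Y → Measurable Z → (∀ η, 1 ≤ Z η ∧ Z η ≤ hi) → (∀ η, 0 ≤ Y η) →
      (∀ η, Y η ≤ Z η) → genNested μ m Y ≤ genNested μ m Z
  | 0, _, _, _, _, _, _, _, _, _, h => h _
  | r + 1, m, hm, Y, Z, hi, hY, hZ, hb, h0, h => by
    have hc : Measurable fun q : γ × (Fin r → γ) => (Fin.cons q.1 q.2 : Fin (r + 1) → γ) :=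
      measurable_cons
    have hcb : ∀ b : γ, Measurable fun η : Fin r → γ => (Fin.cons b η : Fin (r + 1) → γ) :=
      fun b => hc.comp (measurable_const.prodMk measurable_id)
    set IY : γ → ℝ := fun b => genNested μ (Fin.tail m) fun η => Y (Fin.cons b η)
    set IZ : γ → ℝ := fun b => genNested μ (Fin.tail m) fun η => Z (Fin.cons b η)
    have ih : ∀ b, IY b ≤ IZ b := fun b => genNested_le μ (Fin.tail m) (fun i => hm i.succ) _ _
      (hY.comp (hcb b)) (hZ.comp (hcb b)) (fun η => hb _) (fun η => h0 _) fun η => h _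
    have hY0 : ∀ b, 0 ≤ IY b := fun b => genNested_nonneg _ _ _ fun η => h0 _
    have hZ1 : ∀ b, 1 ≤ IZ b ∧ IZ b ≤ hi := fun b => genNested_bounds μ (Fin.tail m)
      (fun i => hm i.succ) _ (hZ.comp (hcb b)) one_pos fun η => hb _
    have hYm : Measurable IY := measurable_genNested μ _ _ (hY.comp hc)
    have hZm : Measurable IZ := measurable_genNested μ _ _ (hZ.comp hc)
    have hpow : ∀ b, IY b ^ m 0 ≤ IZ b ^ m 0 := fun b =>
      Real.rpow_le_rpow (hY0 b) (ih b) (hm 0).le
    have iZ : Integrable (fun b => IZ b ^ m 0) μ :=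
      Integrable.of_bound (hZm.pow_const _).aestronglyMeasurable (hi ^ m 0)
        (Eventually.of_forall fun b => by
          rw [Real.norm_eq_abs, abs_of_nonneg (Real.rpow_nonneg ((hY0 b).trans (ih b)) _)]
          exact Real.rpow_le_rpow ((hY0 b).trans (ih b)) (hZ1 b).2 (hm 0).le)
    have iY : Integrable (fun b => IY b ^ m 0) μ :=
      iZ.mono' (hYm.pow_const _).aestronglyMeasurable (Eventually.of_forall fun b => by
        rw [Real.norm_eq_abs, abs_of_nonneg (Real.rpow_nonneg (hY0 b) _)]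
        exact hpow b)
    show (∫ b, IY b ^ m 0 ∂μ) ^ (1 / m 0) ≤ (∫ b, IZ b ^ m 0 ∂μ) ^ (1 / m 0)
    exact Real.rpow_le_rpow (integral_nonneg fun b => Real.rpow_nonneg (hY0 b) _)
      (integral_mono iY iZ hpow) (one_div_pos.2 (hm 0)).le

/-- The points of cells. -/
def ptsOf {tol : ℝ} (c : Cells N tol) : Pts N := ⟨c.K, c.pos, c.u, fun _ σ => c.norm_one σ⟩

lemma noZero_ptsOf {tol : ℝ} (c : Cells N tol) : NoZero (ptsOf c) := fun σ i => c.ne_zero σ i

/-- The weights of the cells. -/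
def cellU {tol : ℝ} (c : Cells N tol) (σ : Conf (ptsOf c)) : ℝ := c.p σ

lemma cellU_pos {tol : ℝ} (c : Cells N tol) (σ : Conf (ptsOf c)) : 0 < cellU c σ := c.p_pos σ

/-- The weights of the cells, independent of the marks. -/
def cellW {tol : ℝ} (c : Cells N tol) {r : ℕ} : Conf (ptsOf c) → (Fin r → Unit) → ℝ :=
  fun σ _ => cellU c σ

lemma wbdd_cellW {tol : ℝ} (c : Cells N tol) {r : ℕ} :
    WBdd (∑ σ, (cellU c σ + (cellU c σ)⁻¹)) (cellW c (r := r)) := fun σ => by
  have hpos : ∀ τ, 0 < cellU c τ + (cellU c τ)⁻¹ := fun τ =>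
    add_pos (cellU_pos c τ) (inv_pos.2 (cellU_pos c τ))
  have hle := Finset.single_le_sum (fun τ _ => (hpos τ).le) (Finset.mem_univ σ)
  have hC : 0 < ∑ τ, (cellU c τ + (cellU c τ)⁻¹) := (hpos σ).trans_le hle
  have hu := cellU_pos c σ
  have hi := inv_pos.2 hu
  exact ⟨hC, measurable_const, fun _ => ⟨(inv_le_comm₀ hC hu).2 (by linarith),
    by simp only [cellW]; linarith⟩⟩

/-- The constant of the Gaussian comparison. -/
def gaussCost (N : ℕ) (ε D : ℝ) : ℝ :=
  (N : ℝ) * (ε * |1 - D| - Real.log D - (1 - D)) / 2 + Real.log 2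

/-- The Laplace transform of the cells is below the Gaussian one. -/
lemma cells_laplace (hN : 0 < N) {tol : ℝ} (c : Cells N tol) {ε D : ℝ} (hε : 0 < ε)
    (hε1 : ε < 1) (hD : 0 < D) (hbig : 2 * gaussC * Real.sqrt N ≤ ε * N) (Q : Fin N → ℝ) :
    ∑ σ, cellU c σ * Real.exp (∑ i, sv σ i * Q i) ≤
      Real.exp (Real.sqrt N * tol * ∑ i, |Q i| + gaussCost N ε D) *
        ∏ i, Real.exp (Q i ^ 2 / (2 * D * (1 - ε))) := by
  have := isProb_sphere hN
  have hN' : (0 : ℝ) < N := Nat.cast_pos.2 hN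
  have hsN : Real.sqrt (N : ℝ) ≠ 0 := (Real.sqrt_pos.2 hN').ne'
  set W : Fin N → ℝ := fun i => Real.sqrt N * Q i
  have hTm : Measurable fun (y : Fin N → ℝ) i => Real.sqrt N * dir y i :=
    measurable_pi_lambda _ fun i => ((measurable_pi_apply i).comp measurable_dir).const_mul _
  have hGm : Measurable fun x : Fin N → ℝ => Real.exp (∑ i, x i * Q i) :=
    (Finset.measurable_sum _ fun i _ => (measurable_pi_apply i).mul_const _).exp
  have e1 : ∑ σ, cellU c σ * Real.exp (∑ i, sv σ i * Q i) =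
      ∫ x, Real.exp (∑ i, Real.sqrt N * c.π x i * Q i) ∂sphereLaw N :=
    (c.integral_eq fun v => Real.exp (∑ i, Real.sqrt N * v i * Q i)).symm
  have e2 : ∫ x, Real.exp (∑ i, x i * Q i) ∂sphereLaw N =
      ∫ y, Real.exp (field W y) ∂gam (Fin N) := by
    rw [sphereLaw_eq hN, integral_map hTm.aemeasurable hGm.aestronglyMeasurable]
    refine integral_congr_ae (Eventually.of_forall fun y => ?_)
    show Real.exp _ = Real.exp _
    congr 1
    exact Finset.sum_congr rfl fun i _ => by simp only [W]; ring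
  have hWb := integral_exp_mem (π := gam (Fin N)) (measurable_field W) (abs_field_le W)
  have hJ := lint_field_gauss_le hN hε hε1 hD hbig W
  rw [lint, Real.log_le_iff_le_exp ((Real.exp_pos _).trans_le hWb.1)] at hJ
  have hiL : Integrable (fun x => Real.exp (∑ i, x i * Q i)) (sphereLaw N) := by
    rw [sphereLaw_eq hN, integrable_map_measure hGm.aestronglyMeasurable hTm.aemeasurable]
    refine (integrable_exp_of_abs_le (π := gam (Fin N)) (measurable_field W)
      (abs_field_le W)).congr (Eventually.of_forall fun y => ?_)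
    show Real.exp _ = Real.exp _
    congr 1
    exact Finset.sum_congr rfl fun i _ => by simp only [W]; ring
  set B := Real.sqrt N * tol * ∑ i, |Q i|
  have hpt : ∀ᵐ x ∂sphereLaw N, Real.exp (∑ i, Real.sqrt N * c.π x i * Q i) ≤
      Real.exp B * Real.exp (∑ i, x i * Q i) := by
    filter_upwards [c.near] with x hx
    rw [← Real.exp_add]
    refine Real.exp_le_exp.2 ?_
    have hb : ∀ i, Real.sqrt N * c.π x i * Q i ≤ Real.sqrt N * tol * |Q i| + x i * Q i := fun i => by
      have h1 : |c.π x i - x i / Real.sqrt N| ≤ tol := by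
        refine le_trans ?_ hx.1
        rw [← Real.sqrt_sq_eq_abs]
        exact Real.sqrt_le_sqrt (Finset.single_le_sum
          (f := fun i => (c.π x i - x i / Real.sqrt N) ^ 2) (fun _ _ => sq_nonneg _)
          (Finset.mem_univ i))
      have h2 : Real.sqrt N * c.π x i * Q i - x i * Q i ≤ Real.sqrt N * tol * |Q i| := by
        rw [show Real.sqrt N * c.π x i * Q i - x i * Q i =
          Real.sqrt N * ((c.π x i - x i / Real.sqrt N) * Q i) by field_simp, mul_assoc]
        refine mul_le_mul_of_nonneg_left ((le_abs_self _).trans ?_) (Real.sqrt_nonneg _)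
        rw [abs_mul]
        exact mul_le_mul_of_nonneg_right h1 (abs_nonneg _)
      linarith
    refine (Finset.sum_le_sum fun i _ => hb i).trans_eq ?_
    rw [Finset.sum_add_distrib, ← Finset.mul_sum]
  have hiπ : Integrable (fun x => Real.exp (∑ i, Real.sqrt N * c.π x i * Q i)) (sphereLaw N) :=
    (hiL.const_mul (Real.exp B)).mono'
      (Finset.measurable_sum _ fun i _ =>
        (((measurable_pi_apply i).comp c.meas).const_mul _).mul_const _).exp.aestronglyMeasurable
      (hpt.mono fun x hx => by rw [Real.norm_eq_abs, Real.abs_exp]; exact hx)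
  rw [e1]
  refine (integral_mono_ae hiπ (hiL.const_mul _) hpt).trans ?_
  rw [integral_const_mul, e2, Real.exp_add, mul_assoc]
  refine mul_le_mul_of_nonneg_left (hJ.trans_eq ?_) (Real.exp_pos _).le
  rw [Real.exp_add, mul_comm, ← Real.exp_sum, gaussCost]
  congr 2
  rw [Finset.sum_div]
  refine Finset.sum_congr rfl fun i _ => ?_
  simp only [W, mul_pow, Real.sq_sqrt hN'.le]
  field_simp

lemma pathField_smul {s : ℝ} (hs : 0 ≤ s) {ρ : Fin (r + 1) → ℝ} (g : ℝ) (ω : Fin r → ℝ) :
    pathField (fun p => s * ρ p) g ω = Real.sqrt s * pathField ρ g ω := by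
  simp only [pathField, ← mul_sub, Real.sqrt_mul hs, mul_add, Finset.mul_sum, mul_assoc]

/-- The log nested mean at one site with a quadratic top. -/
def quadLog {L : ℕ} (δ a : ℝ) (m : Fin r → ℝ) (ρ : Fin (r + 1) → ℝ) (D : ℝ) (e : Fin L → ℝ) : ℝ :=
  Real.log (genNested (gam (Fin L)) m fun η => Real.exp (siteArg δ a ρ e η ^ 2 / (2 * D)))

lemma measurable_quadArg {L : ℕ} (δ a : ℝ) (ρ : Fin (r + 1) → ℝ) (D : ℝ) :
    Measurable fun z : (Fin L → ℝ) × (Fin r → Fin L → ℝ) =>
      Real.exp (siteArg δ a ρ z.1 z.2 ^ 2 / (2 * D)) :=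
  (((measurable_siteArg δ a ρ).pow_const 2).div_const _).exp

lemma quadArg_mem {L : ℕ} {δ a : ℝ} (ha : 0 ≤ a) (ρ : Fin (r + 1) → ℝ) {D : ℝ} (hD : 0 < D)
    (e : Fin L → ℝ) (η : Fin r → Fin L → ℝ) :
    1 ≤ Real.exp (siteArg δ a ρ e η ^ 2 / (2 * D)) ∧
      Real.exp (siteArg δ a ρ e η ^ 2 / (2 * D)) ≤
        Real.exp ((Real.sqrt δ * (L * (fieldLen ρ * a))) ^ 2 / (2 * D)) := by
  refine ⟨Real.one_le_exp (by positivity), Real.exp_le_exp.2 (div_le_div_of_nonneg_right ?_
    (by positivity))⟩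
  rw [← sq_abs (siteArg δ a ρ e η)]
  exact pow_le_pow_left₀ (abs_nonneg _) (abs_siteArg_le ha ρ e η) 2

lemma quad_mem {L : ℕ} {δ a : ℝ} (ha : 0 ≤ a) {m : Fin r → ℝ} (hm : Exps m)
    (ρ : Fin (r + 1) → ℝ) {D : ℝ} (hD : 0 < D) (e : Fin L → ℝ) :
    1 ≤ genNested (gam (Fin L)) m (fun η => Real.exp (siteArg δ a ρ e η ^ 2 / (2 * D))) ∧
    genNested (gam (Fin L)) m (fun η => Real.exp (siteArg δ a ρ e η ^ 2 / (2 * D))) ≤
      Real.exp ((Real.sqrt δ * (L * (fieldLen ρ * a))) ^ 2 / (2 * D)) :=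
  genNested_bounds (gam (Fin L)) m hm.pos _ ((measurable_quadArg δ a ρ D).comp
    (f := fun η => (e, η)) (measurable_const.prodMk measurable_id)) one_pos
    fun η => quadArg_mem ha ρ hD e η

lemma measurable_quadLog {L : ℕ} (δ a : ℝ) (m : Fin r → ℝ) (ρ : Fin (r + 1) → ℝ) (D : ℝ) :
    Measurable (quadLog (L := L) δ a m ρ D) :=
  (measurable_genNested (gam (Fin L)) m _ (measurable_quadArg δ a ρ D)).log

lemma integrable_quadLog {L : ℕ} {δ a : ℝ} (ha : 0 ≤ a) {m : Fin r → ℝ} (hm : Exps m)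
    (ρ : Fin (r + 1) → ℝ) {D : ℝ} (hD : 0 < D) {Prm : Type} [MeasurableSpace Prm] (μ : Measure Prm)
    [IsFiniteMeasure μ] {T : Prm → Fin L → ℝ} (hT : Measurable T) :
    Integrable (fun p => quadLog δ a m ρ D (T p)) μ := by
  refine integrable_bdd (C := (Real.sqrt δ * (L * (fieldLen ρ * a))) ^ 2 / (2 * D))
    ((measurable_quadLog δ a m ρ D).comp hT) fun p => ?_
  obtain ⟨h1, h2⟩ := quad_mem (δ := δ) ha hm ρ hD (T p)
  simp only [quadLog]
  rw [abs_of_nonneg (Real.log_nonneg h1)]
  exact (Real.log_le_iff_le_exp (one_pos.trans_le h1)).2 h2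

/-- The mean of one site. -/
lemma integral_quadLog_le {L : ℕ} (hL : 0 < L) {a : ℝ} (ha : 0 ≤ a) {m : Fin r → ℝ} (hm : Exps m)
    {ρ D : Fin (r + 1) → ℝ} (hρ : Monotone ρ) (hρ0 : 0 ≤ ρ 0) (hD : ∀ p, 0 < D p)
    (hstep : ∀ i : Fin r, D i.succ - D i.castSucc = m i * (ρ i.succ - ρ i.castSucc)) :
    ∫ e, quadLog (1 / (L : ℝ)) a m ρ (D (Fin.last r)) e ∂gam (Fin L) ≤
      ρ 0 / (2 * D 0) + quadConst m D := by
  have hL0 : (0 : ℝ) < L := Nat.cast_pos.2 hL
  have hpt : ∀ e : Fin L → ℝ, quadLog (1 / (L : ℝ)) a m ρ (D (Fin.last r)) e ≤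
      ρ 0 / (2 * D 0) * csum a e ^ 2 + quadConst m D := fun e => by
    have harg : ∀ η, siteArg (1 / (L : ℝ)) a ρ e η =
        Real.sqrt (ρ 0) * csum a e + siteExp a ρ η := fun η => by
      simp only [siteArg, pathField, siteExp, csum, inc, Finset.sum_add_distrib, ← Finset.mul_sum]
      ring
    simp only [quadLog, harg]
    refine (quad_rec hL ha m hm.pos ρ D hρ hD hstep _).trans_eq ?_
    rw [mul_pow, Real.sq_sqrt hρ0]
    ring
  have hcb : ∀ e : Fin L → ℝ, |csum a e ^ 2| ≤ (Real.sqrt (1 / L) * (L * a)) ^ 2 := fun e => by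
    rw [abs_pow]
    exact pow_le_pow_left₀ (abs_nonneg _) (abs_csum_le ha e) 2
  have hi2 : Integrable (fun e : Fin L → ℝ => csum a e ^ 2) (gam (Fin L)) :=
    integrable_bdd ((measurable_csum a).pow_const 2) hcb
  have hrest : Integrable (fun e : Fin L → ℝ => ρ 0 / (2 * D 0) * csum a e ^ 2 + quadConst m D)
      (gam (Fin L)) := (hi2.const_mul _).add (integrable_const _)
  refine (integral_mono (integrable_quadLog ha hm ρ (hD _) _ measurable_id) hrest hpt).trans ?_
  rw [integral_add (hi2.const_mul _) (integrable_const _), integral_const_mul, integral_const,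
    probReal_univ, one_smul]
  refine add_le_add (mul_le_of_le_one_right (by have := hD 0; positivity) ?_) le_rfl
  have e : ∀ b : Fin L → ℝ, csum a b ^ 2 = (∑ k, Real.sqrt (1 / L) * clipA a (b k)) *
      ∑ k, Real.sqrt (1 / L) * clipA a (b k) := fun b => by
    simp only [csum, Finset.mul_sum, sq]
  simp only [e]
  rw [integral_lin_mul (measurable_clipA a) (abs_clipA_le ha) (integral_clipA ha)]
  have : ∑ _k : Fin L, Real.sqrt (1 / (L : ℝ)) * Real.sqrt (1 / L) = 1 := by
    rw [Real.mul_self_sqrt (by positivity), Finset.sum_const, Finset.card_univ, Fintype.card_fin,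
      nsmul_eq_mul]
    field_simp
  rw [this, mul_one]
  exact svar_le_one ha

/-- The pointwise bound on the cells. -/
lemma phi_cells_le (hN : 0 < N) {tol : ℝ} (ht : 0 ≤ tol) (c : Cells N tol) {ε : ℝ}
    (hε : 0 < ε) (hε1 : ε < 1) (hbig : 2 * gaussC * Real.sqrt N ≤ ε * N) {δ a : ℝ} (ha : 0 ≤ a)
    {m : Fin r → ℝ} (hm : Exps m) (ρ : Fin (r + 1) → ℝ) {Dr : ℝ} (hDr : 0 < Dr) {L : ℕ}
    (E : Fin L → Fin N → ℝ) :
    Phi ((Measure.dirac ()).prod (Measure.pi fun _ : Fin L => gam (Fin N))) m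
        (tens (cellW c) (fieldsW δ a ρ E)) ≤
      Real.sqrt N * tol * (N * (Real.sqrt δ * (L * (fieldLen ρ * a)))) + gaussCost N ε Dr +
        ∑ i, quadLog δ a m (fun p => 1 / (1 - ε) * ρ p) Dr fun k => E k i := by
  set s := 1 / (1 - ε) with hs_def
  have hs : 0 ≤ s := div_nonneg zero_le_one (by linarith)
  set ρ' : Fin (r + 1) → ℝ := fun p => s * ρ p
  set cst := Real.sqrt N * tol * (N * (Real.sqrt δ * (L * (fieldLen ρ * a)))) + gaussCost N ε Dr
  set PL := Measure.pi fun _ : Fin L => gam (Fin N)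
  have hflip : MeasurePreserving (fun (x : Fin L → Fin N → ℝ) (i : Fin N) (k : Fin L) => x k i) PL
      (Measure.pi fun _ : Fin N => gam (Fin L)) :=
    mp_flip (ι := Fin L) (κ := Fin N) (gaussianReal 0 1)
  let Z : (Fin L → Fin N → ℝ) → Fin N → (Fin r → Fin L → ℝ) → ℝ := fun E i η =>
    Real.exp (siteArg δ a ρ' (fun k => E k i) η ^ 2 / (2 * Dr))
  have hZm : ∀ E i, Measurable (Z E i) := fun E i => (measurable_quadArg δ a ρ' Dr).comp
    (f := fun η => (fun k => E k i, η)) (measurable_const.prodMk measurable_id)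
  let Zp : (Fin r → Fin N → Fin L → ℝ) → ℝ := fun η => ∏ i, Z E i fun p => η p i
  have hZp : Measurable Zp := Finset.measurable_prod _ fun i _ => (hZm E i).comp
    (measurable_pi_lambda _ fun p => (measurable_pi_apply i).comp (measurable_pi_apply p))
  let S : (Fin r → Unit × (Fin L → Fin N → ℝ)) → ℝ := fun η =>
    ∑ σ, tens (cellW c) (fieldsW δ a ρ E) σ η
  let G : (Fin r → Unit × (Fin L → Fin N → ℝ)) → ℝ := fun η =>
    Real.exp (-cst) * S η
  let H : (Fin r → Unit × (Fin L → Fin N → ℝ)) → ℝ := fun η => Zp fun p i k => (η p).2 k i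
  have hSb := bdd_sum (wbdd_fields (δ := δ) ha ρ (wbdd_cellW c (r := r)) E)
  have hHm : Measurable H := hZp.comp (measurable_pi_lambda _ fun p => measurable_pi_lambda _
    fun i => measurable_pi_lambda _ fun k => (measurable_pi_apply i).comp
      ((measurable_pi_apply k).comp ((measurable_pi_apply p).snd)))
  have hHb : ∀ η, 1 ≤ H η ∧
      H η ≤ Real.exp ((Real.sqrt δ * (L * (fieldLen ρ' * a))) ^ 2 / (2 * Dr)) ^ N := fun η => by
    simp only [H, Zp, Z]
    refine ⟨Finset.one_le_prod fun i _ => (quadArg_mem ha ρ' hDr _ _).1, ?_⟩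
    refine (Finset.prod_le_prod (fun i _ => (Real.exp_pos _).le) fun i _ =>
      (quadArg_mem ha ρ' hDr _ _).2).trans_eq (by simp)
  have hGH : ∀ η, G η ≤ H η := fun η => by
    set Q : Fin N → ℝ := fun i => siteArg δ a ρ (fun k => E k i) fun p k => (η p).2 k i
    have hS : S η = ∑ σ, cellU c σ * Real.exp (∑ i, sv σ i * Q i) := by
      simp only [S, tens, cellW, fieldsW]
      refine Finset.sum_congr rfl fun σ _ => ?_
      congr 2
      simp only [fieldX, Q, siteArg, Finset.mul_sum]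
      rw [Finset.sum_comm]
      exact Finset.sum_congr rfl fun i _ => Finset.sum_congr rfl fun k _ => by ring
    simp only [G, hS]
    rw [← le_div_iff₀' (Real.exp_pos _)]
    refine (cells_laplace hN c hε hε1 hDr hbig Q).trans ?_
    rw [le_div_iff₀' (Real.exp_pos _), ← mul_assoc, ← Real.exp_add]
    have hsq : ∀ i, Real.exp (Q i ^ 2 / (2 * Dr * (1 - ε))) =
        Z E i fun p k => (η p).2 k i := fun i => by
      simp only [Z, ρ', Q, siteArg, pathField_smul hs, ← Finset.mul_sum]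
      congr 1
      rw [mul_left_comm, mul_pow, mul_pow, Real.sq_sqrt hs, hs_def]
      have : 1 - ε ≠ 0 := by linarith
      field_simp
    simp only [H, Zp, ← hsq]
    refine mul_le_of_le_one_left (Finset.prod_nonneg fun i _ => (Real.exp_pos _).le)
      (Real.exp_le_one_iff.2 ?_)
    have hQ : ∑ i, |Q i| ≤ N * (Real.sqrt δ * (L * (fieldLen ρ * a))) :=
      (Finset.sum_le_sum fun i _ => abs_siteArg_le ha ρ _ _).trans_eq (by simp)
    have := mul_le_mul_of_nonneg_left hQ (mul_nonneg (Real.sqrt_nonneg (N : ℝ)) ht)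
    simp only [cst]
    linarith
  have hG0 : ∀ η, 0 ≤ G η := fun η => mul_nonneg (Real.exp_pos _).le (hSb.gt_zero η).le
  have h1 : genNested ((Measure.dirac ()).prod PL) m H =
      ∏ i, genNested (gam (Fin L)) m (Z E i) := by
    refine (genNested_map ((Measure.dirac ()).prod PL) (Measure.pi fun _ : Fin N => gam (Fin L))
      (hflip.comp measurePreserving_snd) m Zp hZp).trans ?_
    exact genNested_pi (gam (Fin L)) m hm.pos N (Z E) (hZm E) fun i η => (Real.exp_pos _).le
  have h2 := genNested_le ((Measure.dirac ()).prod PL) m hm.pos G H (hSb.meas.const_mul _) hHm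
    hHb hG0 hGH
  simp only [G] at h2
  rw [genNested_const_mul _ (Real.exp_pos _).le m hm.pos S fun η => (hSb.gt_zero η).le, h1] at h2
  have hSpos : 0 < genNested ((Measure.dirac ()).prod PL) m S :=
    (inv_pos.2 hSb.pos).trans_le (genNested_mem _ hSb.pos hm hSb.meas hSb.mem).1
  have h3 := Real.log_le_log (mul_pos (Real.exp_pos _) hSpos) h2
  rw [Real.log_mul (Real.exp_pos _).ne' hSpos.ne', Real.log_exp,
    Real.log_prod fun i _ => (one_pos.trans_le (quad_mem ha hm ρ' hDr _).1).ne'] at h3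
  change Real.log (genNested _ m S) ≤ _
  simp only [quadLog]
  linarith

/-- The fields are below the site value of the sphere. -/
theorem fields_cells_le (hN : 0 < N) {tol : ℝ} (ht : 0 ≤ tol) (c : Cells N tol) {ε : ℝ}
    (hε : 0 < ε) (hε1 : ε < 1) (hbig : 2 * gaussC * Real.sqrt N ≤ ε * N) {a : ℝ} (ha : 0 ≤ a)
    {m : Fin r → ℝ} (hm : Exps m) {ρ D : Fin (r + 1) → ℝ} (hρ : Monotone ρ) (hρ0 : 0 ≤ ρ 0)
    (hD : ∀ p, 0 < D p)
    (hstep : ∀ i : Fin r,
      D i.succ - D i.castSucc = m i * (1 / (1 - ε) * ρ i.succ - 1 / (1 - ε) * ρ i.castSucc))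
    {L : ℕ} (hL : 0 < L) :
    fields (1 / (L : ℝ)) a m ρ L Unit (Measure.dirac ()) (cellW c) ≤
      Real.sqrt N * tol * (N * (Real.sqrt (1 / (L : ℝ)) * (L * (fieldLen ρ * a)))) +
        gaussCost N ε (D (Fin.last r)) +
        N * (1 / (1 - ε) * ρ 0 / (2 * D 0) + quadConst m D) := by
  set s := 1 / (1 - ε) with hs_def
  have hs : 0 ≤ s := div_nonneg zero_le_one (by linarith)
  set δ := 1 / (L : ℝ)
  set Dr := D (Fin.last r)
  set ρ' : Fin (r + 1) → ℝ := fun p => s * ρ p
  set cst := Real.sqrt N * tol * (N * (Real.sqrt δ * (L * (fieldLen ρ * a)))) + gaussCost N ε Dr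
  rw [fields_eq ha hm ρ L Unit (Measure.dirac ()) _ _ (wbdd_cellW c)]
  set PL := Measure.pi fun _ : Fin L => gam (Fin N)
  have hflip : MeasurePreserving (fun (x : Fin L → Fin N → ℝ) (i : Fin N) (k : Fin L) => x k i) PL
      (Measure.pi fun _ : Fin N => gam (Fin L)) :=
    mp_flip (ι := Fin L) (κ := Fin N) (gaussianReal 0 1)
  have hT : ∀ i : Fin N, Measurable fun E : Fin L → Fin N → ℝ => fun k => E k i := fun i =>
    measurable_pi_lambda _ fun k => (measurable_pi_apply i).comp (measurable_pi_apply k)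
  have e : ∀ E : Fin L → Fin N → ℝ,
      Phi ((Measure.dirac ()).prod PL) m (tens (cellW c) (fieldsW δ a ρ E)) ≤
        cst + ∑ i, quadLog δ a m ρ' Dr fun k => E k i := fun E =>
    phi_cells_le hN ht c hε hε1 hbig ha hm ρ (hD (Fin.last r)) E
  have hqi : ∀ i, Integrable (fun E => quadLog δ a m ρ' Dr fun k => E k i) PL := fun i =>
    integrable_quadLog ha hm ρ' (hD _) PL (hT i)
  have hWm : MeasW fun E : Fin L → Fin N → ℝ => tens (cellW c) (fieldsW δ a ρ E) := fun σ => by
    have h := measW_fields (j := L) δ a ρ (measW_const (wbdd_cellW c (r := r)) (Prm := Unit)) σ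
    exact Measurable.comp
      (g := fun z : (Unit × (Fin L → Fin N → ℝ)) × (Fin r → Unit × (Fin L → Fin N → ℝ)) =>
        tens (cellW c) (fieldsW δ a ρ z.1.2) σ z.2)
      (f := fun z : (Fin L → Fin N → ℝ) × (Fin r → Unit × (Fin L → Fin N → ℝ)) => (((), z.1), z.2))
      h ((measurable_const.prodMk measurable_fst).prodMk measurable_snd)
  have hPm : Measurable fun E : Fin L → Fin N → ℝ => Phi ((Measure.dirac ()).prod PL) m
      (tens (cellW c) (fieldsW δ a ρ E)) := measurable_Phi _ m hWm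
  have hPi : Integrable (fun E => Phi ((Measure.dirac ()).prod PL) m
      (tens (cellW c) (fieldsW δ a ρ E))) PL :=
    integrable_bdd hPm fun E => abs_Phi_le' _ hm (wbdd_fields ha ρ (wbdd_cellW c) E)
  refine (integral_mono hPi ((integrable_const cst).add (integrable_finsetSum _ fun i _ => hqi i))
    e).trans ?_
  simp only [Pi.add_apply]
  rw [integral_add (integrable_const cst) (integrable_finsetSum _ fun i _ => hqi i),
    integral_finsetSum _ fun i _ => hqi i, integral_const, probReal_univ, one_smul]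
  have hi : ∀ i : Fin N, ∫ E, quadLog δ a m ρ' Dr (fun k => E k i) ∂PL ≤
      s * ρ 0 / (2 * D 0) + quadConst m D := fun i => by
    refine (integral_mp ((measurePreserving_eval (fun _ : Fin N => gam (Fin L)) i).comp hflip)
      (measurable_quadLog δ a m ρ' Dr)).trans_le ?_
    exact integral_quadLog_le hL ha hm (fun p q h => mul_le_mul_of_nonneg_left (hρ h) hs)
      (mul_nonneg hs hρ0) hD hstep
  refine add_le_add le_rfl ((Finset.sum_le_sum fun i _ => hi i).trans_eq ?_)
  rw [Finset.sum_const, Finset.card_univ, Fintype.card_fin, nsmul_eq_mul]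

end Vale.Agent.P157.Parisi.Sphere.Up
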