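import Vale.Agent.P157.Parisi.Sphere.Upper.Chord
import Vale.Agent.P157.Parisi.Upper.Copies

/-!
Fresh copies of a pattern on a finite family of unit vectors.
-/

noncomputable section

open MeasureTheory ProbabilityTheory Filter
open scoped BigOperators ENNReal Topology

namespace Vale.Agent.P157.Parisi.Sphere.Up

open Vale.Agent.P157.Parisi.Up
open Vale.Agent.P168.Upper (integral_mp mp_precomp)

variable {N : ℕ} {P : Pts N} {Λ ι : Type} [Fintype Λ] [Fintype ι] {f : ℝ → ℝ} {A : ℝ}


/-- The squared overlap terms of the derivative, given the field `γ`. -/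
def pairTerm (p : Conf P × Λ → ℝ) (f : ℝ → ℝ) (δ : ℝ) (u : Λ → ι → ℝ) (γ : ι → ℝ) : ℝ :=
  (∑ c, ((∑ x, p x * (u x.2 c * avgDExp f δ (dot γ (u x.2)))) /
      ∑ x, p x * avgExp f δ (dot γ (u x.2))) ^ 2) -
    ∑ i : Fin N, ((∑ x, p x * (unitVec (P := P) x.1 i * avgDExp f δ (dot γ (u x.2)))) /
      ∑ x, p x * avgExp f δ (dot γ (u x.2))) ^ 2

/-- Block concavity against leaf vectors. -/
theorem swap_finite (hcv : BlockConcave f) (hs : Smooth f A) (hN : 0 < N) (hnz : NoZero P) [Nonempty Λ]
    (p : Conf P × Λ → ℝ) (hp : ∀ x, 0 ≤ p x) (hp1 : ∑ x, p x = 1) (u : Λ → ι → ℝ) {ρ : ℝ}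
    (hu : ∀ l, ∑ c, u l c ^ 2 = ρ) (hρ : ρ ≤ 1) :
    meanLog p f (fun x => unitVec x.1) -
        ∫ γ, Real.log (∑ x, p x * avgExp f (1 - ρ) (dot γ (u x.2))) ∂gam ι ≤
      1 / 2 * ∫ γ, pairTerm p f (1 - ρ) u γ ∂gam ι := by
  classical
  set δ := 1 - ρ with hδ_def
  have hδ : 0 ≤ δ := by linarith
  have hA := smooth_nonneg hs
  set B := A * Real.exp A with hB_def
  have hB : 0 ≤ B := by positivity
  set z := Real.exp (-A) with hz_def
  have hz : 0 < z := Real.exp_pos _
  have huc : ∀ l c, |u l c| ≤ 1 := fun l c => abs_le_one_iff_mul_self_le_one.2 (by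
    have := Finset.single_le_sum (f := fun c => u l c ^ 2) (fun c _ => sq_nonneg _) (Finset.mem_univ c)
    rw [hu l] at this
    nlinarith)
  have hsv : ∀ (s : Conf P) i, |unitVec s i| ≤ 1 := abs_unitVec_le
  have hdm : ∀ l : Λ, Measurable fun γ : ι → ℝ => dot γ (u l) := fun l =>
    measurable_dot.comp (measurable_id.prodMk measurable_const)
  -- the limiting numerators and denominator
  let Z₀ : (ι → ℝ) → ℝ := fun γ => ∑ x, p x * avgExp f δ (dot γ (u x.2))
  let num₀ : (Conf P × Λ → ℝ) → (ι → ℝ) → ℝ := fun a γ =>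
    ∑ x, p x * (a x * avgDExp f δ (dot γ (u x.2)))
  have hZ₀ : ∀ γ, z ≤ Z₀ γ := fun γ => by
    calc z = ∑ x, p x * z := by rw [← Finset.sum_mul, hp1, one_mul]
      _ ≤ _ := Finset.sum_le_sum fun x _ => mul_le_mul_of_nonneg_left (avgExp_mem hs δ _).1 (hp x)
  have hnum₀ : ∀ a : Conf P × Λ → ℝ, (∀ x, |a x| ≤ 1) → ∀ γ, |num₀ a γ| ≤ B := fun a ha γ => by
    refine (Finset.abs_sum_le_sum_abs _ _).trans ?_
    calc ∑ x, |p x * (a x * avgDExp f δ (dot γ (u x.2)))| ≤ ∑ x, p x * B :=
          Finset.sum_le_sum fun x _ => by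
            rw [abs_mul, abs_mul, abs_of_nonneg (hp x)]
            exact mul_le_mul_of_nonneg_left ((mul_le_mul (ha x) (abs_avgDExp_le hs δ _)
              (abs_nonneg _) zero_le_one).trans_eq (one_mul B)) (hp x)
      _ = B := by rw [← Finset.sum_mul, hp1, one_mul]
  let main : (ι → ℝ) → ℝ := fun γ => pairTerm p f δ u γ
  have hmain_m : Measurable main :=
    (Finset.measurable_sum _ fun c _ => (((Finset.measurable_sum _ fun x _ =>
        (((measurable_avgDExp hs δ).comp (hdm x.2)).const_mul _).const_mul _)).div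
      (Finset.measurable_sum _ fun x _ =>
        ((measurable_avgExp hs δ).comp (hdm x.2)).const_mul _)).pow_const 2).sub
    ((Finset.measurable_sum _ fun i _ => (((Finset.measurable_sum _ fun x _ =>
        (((measurable_avgDExp hs δ).comp (hdm x.2)).const_mul _).const_mul _)).div
      (Finset.measurable_sum _ fun x _ =>
        ((measurable_avgExp hs δ).comp (hdm x.2)).const_mul _)).pow_const 2))
  set P₀ := (Fintype.card ι : ℝ) + N
  have hsqb : ∀ a : Conf P × Λ → ℝ, (∀ x, |a x| ≤ 1) → ∀ γ,
      0 ≤ (num₀ a γ / Z₀ γ) ^ 2 ∧ (num₀ a γ / Z₀ γ) ^ 2 ≤ (B / z) ^ 2 := fun a ha γ => by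
    refine ⟨sq_nonneg _, ?_⟩
    rw [← sq_abs, abs_div, abs_of_pos (hz.trans_le (hZ₀ γ))]
    exact pow_le_pow_left₀ (div_nonneg (abs_nonneg _) (hz.trans_le (hZ₀ γ)).le)
      (div_le_div₀ hB (hnum₀ a ha γ) hz (hZ₀ γ)) 2
  have hNr : (0 : ℝ) < N := by exact_mod_cast hN
  have hmain_b : ∀ γ, |main γ| ≤ P₀ * (B / z) ^ 2 := fun γ => by
    have h1 : ∀ c : ι, 0 ≤ (num₀ (fun x => u x.2 c) γ / Z₀ γ) ^ 2 ∧
        (num₀ (fun x => u x.2 c) γ / Z₀ γ) ^ 2 ≤ (B / z) ^ 2 := fun c =>
      hsqb _ (fun x => huc _ _) γ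
    have h2 : ∀ i : Fin N, 0 ≤ (num₀ (fun x => unitVec x.1 i) γ / Z₀ γ) ^ 2 ∧
        (num₀ (fun x => unitVec x.1 i) γ / Z₀ γ) ^ 2 ≤ (B / z) ^ 2 := fun i =>
      hsqb _ (fun x => hsv _ _) γ
    have s1 := Finset.sum_le_sum fun c (_ : c ∈ Finset.univ) => (h1 c).2
    have s2 := Finset.sum_le_sum fun i (_ : i ∈ Finset.univ) => (h2 i).2
    have n1 := Finset.sum_nonneg fun c (_ : c ∈ Finset.univ) => (h1 c).1
    have n2 := Finset.sum_nonneg fun i (_ : i ∈ Finset.univ) => (h2 i).1
    simp only [Finset.sum_const, Finset.card_univ, Fintype.card_fin, nsmul_eq_mul] at s1 s2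
    have h3 : ∑ i, (num₀ (fun x => unitVec x.1 i) γ / Z₀ γ) ^ 2 ≤ (N : ℝ) * (B / z) ^ 2 := by linarith
    have h4 : 0 ≤ ∑ i, (num₀ (fun x => unitVec x.1 i) γ / Z₀ γ) ^ 2 := by positivity
    simp only [main, pairTerm]
    rw [abs_le]
    simp only [num₀, Z₀] at s1 n1 h3 h4
    constructor <;> nlinarith [sq_nonneg (B / z)]
  set E₁ := (4 * (B * B) + 1) / 2 + (4 * (Real.exp A * Real.exp A) + 1) / 2
  set C₁ := P₀ * (2 * B / z * (1 / z + B / z ^ 2))
  set C₂ := δ * (B * B) / z ^ 2
  have hC₁ : 0 ≤ C₁ := by simp only [C₁, P₀]; positivity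
  -- the bound with `k + 1` copies
  have key : ∀ k : ℕ, meanLog p f (fun x => unitVec x.1) -
      ∫ γ, Real.log (Z₀ γ) ∂gam ι ≤
        1 / 2 * ∫ γ, main γ ∂gam ι + (1 / 2 * (C₁ * E₁) + 1 / 2 * C₂) / Real.sqrt (k + 1 : ℕ) := by
    intro k
    set K : ℝ := ((k + 1 : ℕ) : ℝ) with hK_def
    have hK : 0 < K := by positivity
    let pK : (Conf P × Λ) × Fin (k + 1) → ℝ := fun x => p x.1 / K
    have hpK : ∀ x, 0 ≤ pK x := fun x => div_nonneg (hp _) hK.le
    have hpK1 : ∑ x, pK x = 1 := by
      simp only [pK]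
      rw [Fintype.sum_prod_type]
      simp only [Finset.sum_const, Finset.card_univ, Fintype.card_fin, nsmul_eq_mul, ← hK_def]
      rw [← hp1]
      exact Finset.sum_congr rfl fun x _ => by field_simp
    let w : (Conf P × Λ) × Fin (k + 1) → ι ⊕ (Λ × Fin (k + 1)) → ℝ := fun x =>
      Sum.elim (u x.1.2) (fun d => if d = (x.1.2, x.2) then Real.sqrt δ else 0)
    have hw : ∀ x, ∑ c, w x c ^ 2 = 1 := fun x => by
      rw [Fintype.sum_sum_type]
      simp only [w, Sum.elim_inl, Sum.elim_inr, hu, ite_pow, Finset.sum_ite_eq', Finset.mem_univ,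
        if_true, zero_pow two_ne_zero, Real.sq_sqrt hδ]
      linarith
    have : Nonempty (ι ⊕ (Λ × Fin (k + 1))) := ⟨Sum.inr (Classical.arbitrary Λ, 0)⟩
    have hch := chord hcv hs hN hnz hpK hpK1 (fun x => x.1.1) w hw
    have eR : meanLog pK f (fun x => unitVec x.1.1) = meanLog p f (fun x => unitVec x.1) := by
      refine integral_congr_ae (Filter.Eventually.of_forall fun g => ?_)
      simp only [logSum, pK]
      congr 1
      rw [Fintype.sum_prod_type]
      refine Finset.sum_congr rfl fun x _ => ?_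
      simp only [Finset.sum_const, Finset.card_univ, Fintype.card_fin, nsmul_eq_mul, ← hK_def]
      field_simp
    -- split the Gaussian vector
    have hmp : MeasurePreserving (fun g : ι ⊕ (Λ × Fin (k + 1)) → ℝ =>
        (fun c => g (Sum.inl c), fun d => g (Sum.inr d)))
        (gam (ι ⊕ (Λ × Fin (k + 1)))) ((gam ι).prod (gam (Λ × Fin (k + 1)))) :=
      measurePreserving_sumPiEquivProdPi fun _ : ι ⊕ (Λ × Fin (k + 1)) => gaussianReal 0 1
    have hdot : ∀ g x, dot g (w x) =
        dot (fun c => g (Sum.inl c)) (u x.1.2) + Real.sqrt δ * g (Sum.inr (x.1.2, x.2)) := fun g x => by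
      simp only [dot, w, Fintype.sum_sum_type, Sum.elim_inl, Sum.elim_inr, mul_ite, mul_zero,
        Finset.sum_ite_eq', Finset.mem_univ, if_true]
      ring
    let avg : (ℝ → ℝ) → (ι → ℝ) → (Λ × Fin (k + 1) → ℝ) → Λ → ℝ := fun h γ η l =>
      (∑ j, h (dot γ (u l) + Real.sqrt δ * η (l, j))) / K
    let ZK : (ι → ℝ) × (Λ × Fin (k + 1) → ℝ) → ℝ := fun q =>
      ∑ x, p x * avg (fun y => Real.exp (f y)) q.1 q.2 x.2
    let numK : (Conf P × Λ → ℝ) → (ι → ℝ) × (Λ × Fin (k + 1) → ℝ) → ℝ := fun a q =>
      ∑ x, p x * (a x * avg (dExp f) q.1 q.2 x.2)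
    have havg_m : ∀ (h : ℝ → ℝ), Continuous h → ∀ l,
        Measurable fun q : (ι → ℝ) × (Λ × Fin (k + 1) → ℝ) => avg h q.1 q.2 l := fun h hh l =>
      (Finset.measurable_sum _ fun j _ => hh.measurable.comp (((hdm l).comp measurable_fst).add
        (((measurable_pi_apply (l, j)).comp measurable_snd).const_mul _))).div_const _
    have havg_b : ∀ (h : ℝ → ℝ) (M : ℝ), (∀ y, |h y| ≤ M) → ∀ γ η l, |avg h γ η l| ≤ M := by
      intro h M hM γ η l
      simp only [avg, abs_div, abs_of_pos hK]
      rw [div_le_iff₀ hK]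
      refine (Finset.abs_sum_le_sum_abs _ _).trans ((Finset.sum_le_sum fun j _ => hM _).trans_eq ?_)
      simp [hK_def]; ring
    have hexpb : ∀ y, |Real.exp (f y)| ≤ Real.exp A := fun y => by
      rw [Real.abs_exp]; exact Real.exp_le_exp.2 (le_of_abs_le (hs.b0 _))
    have hZK : ∀ q, z ≤ ZK q := fun q => by
      calc z = ∑ x, p x * z := by rw [← Finset.sum_mul, hp1, one_mul]
        _ ≤ _ := Finset.sum_le_sum fun x _ => mul_le_mul_of_nonneg_left (by
              simp only [avg]
              rw [le_div_iff₀ hK]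
              refine le_of_eq_of_le ?_ (Finset.sum_le_sum fun j _ =>
                Real.exp_le_exp.2 (abs_le.1 (hs.b0 _)).1)
              simp [hK_def, hz_def]; ring) (hp x)
    have hnumK : ∀ a : Conf P × Λ → ℝ, (∀ x, |a x| ≤ 1) → ∀ q, |numK a q| ≤ B := fun a ha q => by
      refine (Finset.abs_sum_le_sum_abs _ _).trans ?_
      calc ∑ x, |p x * (a x * avg (dExp f) q.1 q.2 x.2)| ≤ ∑ x, p x * B :=
            Finset.sum_le_sum fun x _ => by
              rw [abs_mul, abs_mul, abs_of_nonneg (hp x)]
              exact mul_le_mul_of_nonneg_left ((mul_le_mul (ha x)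
                (havg_b _ B (abs_dExp_le hs) _ _ _) (abs_nonneg _) zero_le_one).trans_eq
                (one_mul B)) (hp x)
        _ = B := by rw [← Finset.sum_mul, hp1, one_mul]
    have hZKm : Measurable ZK := Finset.measurable_sum _ fun x _ =>
      (havg_m _ (Real.continuous_exp.comp (continuous_of_smooth hs)) x.2).const_mul _
    have hsum : ∀ (h : ℝ → ℝ) (g : ι ⊕ (Λ × Fin (k + 1)) → ℝ) (a : Conf P × Λ → ℝ),
        ∑ x, pK x * (a x.1 * h (dot g (w x))) =
          ∑ x, p x * (a x * avg h (fun c => g (Sum.inl c)) (fun d => g (Sum.inr d)) x.2) := by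
      intro h g a
      rw [Fintype.sum_prod_type]
      refine Finset.sum_congr rfl fun x _ => ?_
      simp only [avg, pK, hdot, Finset.sum_div, Finset.mul_sum]
      exact Finset.sum_congr rfl fun j _ => by ring
    have hden : ∀ g, ∑ x, pK x * Real.exp (f (dot g (w x))) =
        ZK (fun c => g (Sum.inl c), fun d => g (Sum.inr d)) := fun g => by
      simpa [ZK] using hsum (fun y => Real.exp (f y)) g fun _ => 1
    -- Jensen
    have eQ : meanLog pK f w ≤ ∫ γ, Real.log (Z₀ γ) ∂gam ι := by
      have e : meanLog pK f w =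
          ∫ q, Real.log (ZK q) ∂(gam ι).prod (gam (Λ × Fin (k + 1))) := by
        rw [← integral_mp hmp (g := fun q => Real.log (ZK q)) (Real.measurable_log.comp hZKm)]
        simp only [meanLog, logSum, hden]
      have hlb : ∀ q, |Real.log (ZK q)| ≤ |Real.log z| + A := fun q => by
        have h1 := Real.log_le_log hz (hZK q)
        have h2 : ZK q ≤ Real.exp A := by
          refine (Finset.sum_le_sum fun x _ => mul_le_mul_of_nonneg_left
            ((le_abs_self _).trans (havg_b _ _ hexpb _ _ _)) (hp x)).trans_eq ?_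
          rw [← Finset.sum_mul, hp1, one_mul]
        have h3 := Real.log_le_log (hz.trans_le (hZK q)) h2
        rw [Real.log_exp] at h3
        rw [abs_le]
        constructor <;> linarith [neg_abs_le (Real.log z), abs_nonneg (Real.log z)]
      rw [e, integral_prod _ (integrable_bdd (F := fun q => Real.log (ZK q)) (Real.measurable_log.comp hZKm) hlb)]
      refine integral_mono (integrable_bdd (Real.measurable_log.comp hZKm) hlb).integral_prod_left
        (integrable_bdd (C := |Real.log z| + A) (Real.measurable_log.comp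
          (Finset.measurable_sum _ fun x _ =>
            ((measurable_avgExp hs δ).comp (hdm x.2)).const_mul _)) fun γ => ?_) fun γ => ?_
      · have h1 := Real.log_le_log hz (hZ₀ γ)
        have h2 : Z₀ γ ≤ Real.exp A := (Finset.sum_le_sum fun x _ => mul_le_mul_of_nonneg_left
            (avgExp_mem hs δ _).2 (hp x)).trans_eq (by rw [← Finset.sum_mul, hp1, one_mul])
        have h3 := Real.log_le_log (hz.trans_le (hZ₀ γ)) h2
        rw [Real.log_exp] at h3
        rw [abs_le]
        constructor <;> linarith [neg_abs_le (Real.log z), abs_nonneg (Real.log z)]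
      · have hint : ∫ η, ZK (γ, η) ∂gam (Λ × Fin (k + 1)) = Z₀ γ := by
          have hi : ∀ l j, Integrable (fun η : Λ × Fin (k + 1) → ℝ =>
              Real.exp (f (dot γ (u l) + Real.sqrt δ * η (l, j)))) (gam (Λ × Fin (k + 1))) :=
            fun l j => integrable_bdd ((Real.continuous_exp.comp ((continuous_of_smooth hs).comp
              (by fun_prop))).measurable) fun η => hexpb _
          simp only [ZK, avg]
          rw [integral_finsetSum _ fun x _ =>
            ((integrable_finsetSum _ fun j _ => hi x.2 j).div_const _).const_mul _]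
          refine Finset.sum_congr rfl fun x _ => ?_
          rw [integral_const_mul, integral_div, integral_finsetSum _ fun j _ => hi x.2 j]
          have he : ∀ j, ∫ η : Λ × Fin (k + 1) → ℝ,
              Real.exp (f (dot γ (u x.2) + Real.sqrt δ * η (x.2, j))) ∂gam (Λ × Fin (k + 1)) =
              avgExp f δ (dot γ (u x.2)) := fun j =>
            integral_mp (g := fun e => Real.exp (f (dot γ (u x.2) + Real.sqrt δ * e)))
              (measurePreserving_eval (fun _ : Λ × Fin (k + 1) => gaussianReal 0 1) (x.2, j))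
              ((Real.continuous_exp.comp ((continuous_of_smooth hs).comp (by fun_prop))).measurable)
          simp only [he, Finset.sum_const, Finset.card_univ, Fintype.card_fin, nsmul_eq_mul,
            ← hK_def]
          field_simp
        refine (integral_log_le_log_integral hz
          (hZKm.comp (measurable_const.prodMk measurable_id)) (b := Real.exp A) fun η => ⟨hZK _, ?_⟩).trans
          (le_of_eq (by rw [← hint]; rfl))
        exact (Finset.sum_le_sum fun x _ => mul_le_mul_of_nonneg_left
          ((le_abs_self _).trans (havg_b _ _ hexpb _ _ _)) (hp x)).trans_eq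
            (by rw [← Finset.sum_mul, hp1, one_mul])
    -- the derivative term
    let err : (ι → ℝ) × (Λ × Fin (k + 1) → ℝ) → ℝ := fun q => ∑ x, p x *
      (|avg (dExp f) q.1 q.2 x.2 - avgDExp f δ (dot q.1 (u x.2))| +
        |avg (fun y => Real.exp (f y)) q.1 q.2 x.2 - avgExp f δ (dot q.1 (u x.2))|)
    have herrm : Measurable err := Finset.measurable_sum _ fun x _ =>
      (((havg_m _ (continuous_dExp hs) x.2).sub
          ((measurable_avgDExp hs δ).comp ((hdm x.2).comp measurable_fst))).abs.add
        ((havg_m _ (Real.continuous_exp.comp (continuous_of_smooth hs)) x.2).sub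
          ((measurable_avgExp hs δ).comp ((hdm x.2).comp measurable_fst))).abs).const_mul _
    have herrb : ∀ q, |err q| ≤ 2 * B + 2 * Real.exp A := fun q => by
      rw [abs_of_nonneg (Finset.sum_nonneg fun x _ => mul_nonneg (hp x) (by positivity))]
      refine (Finset.sum_le_sum fun x _ => mul_le_mul_of_nonneg_left (add_le_add
        ((abs_sub _ _).trans (add_le_add (havg_b _ B (abs_dExp_le hs) _ _ _) (abs_avgDExp_le hs δ _)))
        ((abs_sub _ _).trans (add_le_add (havg_b _ _ hexpb _ _ _)
          ((abs_of_pos (hz.trans_le (avgExp_mem hs δ _).1)).trans_le (avgExp_mem hs δ _).2))))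
        (hp x)).trans_eq ?_
      rw [← Finset.sum_mul, hp1]; ring
    have herr : ∀ γ, ∫ η, err (γ, η) ∂gam (Λ × Fin (k + 1)) ≤ E₁ / Real.sqrt K := fun γ => by
      have hh : ∀ (h : ℝ → ℝ) (M : ℝ), Continuous h → (∀ y, |h y| ≤ M) → ∀ l,
          Integrable (fun η => |avg h γ η l - ∫ e, h (dot γ (u l) + Real.sqrt δ * e) ∂gaussianReal 0 1|)
            (gam (Λ × Fin (k + 1))) ∧
          ∫ η, |avg h γ η l - ∫ e, h (dot γ (u l) + Real.sqrt δ * e) ∂gaussianReal 0 1|
            ∂gam (Λ × Fin (k + 1)) ≤ (4 * (M * M) + 1) / (2 * Real.sqrt K) := by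
        intro h M hh hM l
        have hφm : Measurable fun e : ℝ => h (dot γ (u l) + Real.sqrt δ * e) :=
          (hh.comp (by fun_prop)).measurable
        refine ⟨(integrable_bdd ((havg_m h hh l).comp (measurable_const.prodMk measurable_id))
          fun η => havg_b h M hM γ η l).sub (integrable_const _) |>.abs, ?_⟩
        have := integral_abs_avg_sub_le (ι := Fin (k + 1)) (μ := gaussianReal 0 1) hφm (M := M)
          fun e => hM _
        rw [Fintype.card_fin, ← hK_def] at this
        refine le_of_eq_of_le ?_ this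
        exact integral_mp (g := fun η : Fin (k + 1) → ℝ =>
            |(∑ j, h (dot γ (u l) + Real.sqrt δ * η j)) / K -
              ∫ e, h (dot γ (u l) + Real.sqrt δ * e) ∂gaussianReal 0 1|)
          (mp_precomp (gaussianReal 0 1) (g := fun j : Fin (k + 1) => (l, j))
            fun a b hab => (Prod.ext_iff.1 hab).2)
          (((Finset.measurable_sum _ fun j _ => hφm.comp (measurable_pi_apply j)).div_const _).sub_const
            _).abs
      have h1 := fun l => hh (dExp f) B (continuous_dExp hs) (abs_dExp_le hs) l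
      have h2 := fun l => hh _ (Real.exp A)
        (Real.continuous_exp.comp (continuous_of_smooth hs)) hexpb l
      simp only [err]
      rw [integral_finsetSum _ fun x _ => ?_]
      · refine (Finset.sum_le_sum (g := fun x => p x * (E₁ / Real.sqrt K)) fun x _ => ?_).trans_eq
          (by rw [← Finset.sum_mul, hp1, one_mul])
        rw [integral_const_mul]
        refine mul_le_mul_of_nonneg_left ?_ (hp x)
        rw [integral_add]
        · refine (add_le_add (h1 x.2).2 (h2 x.2).2).trans_eq ?_
          simp only [E₁]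
          field_simp
        · exact (h1 x.2).1
        · exact (h2 x.2).1
      · exact ((h1 x.2).1.add (h2 x.2).1).const_mul _
    have hdiff : ∀ a : Conf P × Λ → ℝ, (∀ x, |a x| ≤ 1) → ∀ q,
        |(numK a q / ZK q) ^ 2 - (num₀ a q.1 / Z₀ q.1) ^ 2| ≤
          2 * B / z * (1 / z + B / z ^ 2) * err q := fun a ha q => by
      refine (abs_sq_div_sub_le hz (hZK q) (hZ₀ q.1) (hnumK a ha q) (hnum₀ a ha q.1)).trans ?_
      refine le_of_le_of_eq (mul_le_mul_of_nonneg_left (b := |numK a q - num₀ a q.1| / z +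
        B * |ZK q - Z₀ q.1| / z ^ 2) (c := (1 / z + B / z ^ 2) * err q) ?_
        (show (0 : ℝ) ≤ 2 * B / z by positivity)) (mul_assoc _ _ _).symm
      have e1 : |numK a q - num₀ a q.1| ≤ err q := by
        simp only [numK, num₀, ← Finset.sum_sub_distrib]
        refine (Finset.abs_sum_le_sum_abs _ _).trans (Finset.sum_le_sum fun x _ => ?_)
        rw [← mul_sub, ← mul_sub, abs_mul, abs_mul, abs_of_nonneg (hp x)]
        refine mul_le_mul_of_nonneg_left ?_ (hp x)
        exact ((mul_le_mul_of_nonneg_right (ha x) (abs_nonneg _)).trans_eq (one_mul _)).trans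
          (le_add_of_nonneg_right (abs_nonneg _))
      have e2 : |ZK q - Z₀ q.1| ≤ err q := by
        simp only [ZK, Z₀, ← Finset.sum_sub_distrib]
        refine (Finset.abs_sum_le_sum_abs _ _).trans (Finset.sum_le_sum fun x _ => ?_)
        rw [← mul_sub, abs_mul, abs_of_nonneg (hp x)]
        exact mul_le_mul_of_nonneg_left (le_add_of_nonneg_left (abs_nonneg _)) (hp x)
      have e2' := mul_le_mul_of_nonneg_left e2 hB
      calc |numK a q - num₀ a q.1| / z + B * |ZK q - Z₀ q.1| / z ^ 2
          ≤ err q / z + B * err q / z ^ 2 := by gcongr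
        _ = _ := by ring
    have hchord : ∀ g, chordDeriv pK f (fun x => x.1.1) w g ≤
        main (fun c => g (Sum.inl c)) +
          C₁ * err (fun c => g (Sum.inl c), fun d => g (Sum.inr d)) + C₂ / K := fun g => by
      set γ : ι → ℝ := fun c => g (Sum.inl c) with hγ
      set η : Λ × Fin (k + 1) → ℝ := fun d => g (Sum.inr d) with hη
      let D : (Conf P × Λ) × Fin (k + 1) → ℝ := fun x => dExp f (dot g (w x))
      let same : (Conf P × Λ) × Fin (k + 1) → (Conf P × Λ) × Fin (k + 1) → ℝ := fun x x' =>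
        if (x.1.2, x.2) = (x'.1.2, x'.2) then δ else 0
      have hww : ∀ x x', dot (w x) (w x') - overlap x.1.1 x'.1.1 =
          (∑ c, u x.1.2 c * u x'.1.2 c) + same x x' -
            ∑ i, unitVec x.1.1 i * unitVec x'.1.1 i := fun x x' => by
        have e : dot (w x) (w x') = (∑ c, u x.1.2 c * u x'.1.2 c) + same x x' := by
          simp only [dot, w, Fintype.sum_sum_type, Sum.elim_inl, Sum.elim_inr, same]
          congr 1
          simp only [ite_mul, zero_mul, Finset.sum_ite_eq', Finset.mem_univ, if_true, mul_ite,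
            mul_zero]
          rw [Real.mul_self_sqrt hδ]
          exact if_congr eq_comm rfl rfl
        rw [e, overlap, dot]
      have hsq : ∀ a : Conf P × Λ → ℝ,
          ∑ x, ∑ x', pK x * (pK x' * (a x.1 * a x'.1 * (D x * D x'))) = numK a (γ, η) ^ 2 := by
        intro a
        have e := hsum (dExp f) g a
        simp only [numK, hγ, hη, ← e]
        rw [sq, Finset.sum_mul_sum]
        exact Finset.sum_congr rfl fun x _ => Finset.sum_congr rfl fun x' _ => by
          simp only [D]; ring
      have hdiag : ∑ x, ∑ x', pK x * (pK x' * (same x x' * (D x * D x'))) ≤ δ * (B * B) / K := by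
        have hin : ∀ x : (Conf P × Λ) × Fin (k + 1),
            ∑ x', pK x' * (if (x.1.2, x.2) = (x'.1.2, x'.2) then (1 : ℝ) else 0) ≤ 1 / K := by
          intro x
          rw [Fintype.sum_prod_type, show (1 : ℝ) / K = ∑ y, p y / K by rw [← Finset.sum_div, hp1]]
          refine Finset.sum_le_sum fun y _ => ?_
          rw [Finset.sum_eq_single x.2 (fun j _ hj => by simp [Ne.symm hj]) (by simp)]
          simp only [pK]
          split_ifs
          · exact le_of_eq (mul_one _)
          · simpa using div_nonneg (hp y) hK.le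
        calc ∑ x, ∑ x', pK x * (pK x' * (same x x' * (D x * D x')))
            ≤ ∑ x, ∑ x', pK x * (pK x' * ((if (x.1.2, x.2) = (x'.1.2, x'.2) then (1 : ℝ) else 0) *
                (δ * (B * B)))) := by
              refine Finset.sum_le_sum fun x _ => Finset.sum_le_sum fun x' _ =>
                mul_le_mul_of_nonneg_left (mul_le_mul_of_nonneg_left ?_ (hpK x')) (hpK x)
              simp only [same]
              split_ifs
              · rw [one_mul]
                refine mul_le_mul_of_nonneg_left ((le_abs_self _).trans ?_) hδ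
                rw [abs_mul]
                exact mul_le_mul (abs_dExp_le hs _) (abs_dExp_le hs _) (abs_nonneg _) hB
              · simp
          _ = ∑ x, pK x * ((∑ x', pK x' *
                (if (x.1.2, x.2) = (x'.1.2, x'.2) then (1 : ℝ) else 0)) * (δ * (B * B))) := by
              refine Finset.sum_congr rfl fun x _ => ?_
              rw [Finset.sum_mul, Finset.mul_sum]
              exact Finset.sum_congr rfl fun x' _ => by ring
          _ ≤ ∑ x, pK x * ((1 / K) * (δ * (B * B))) := Finset.sum_le_sum fun x _ =>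
              mul_le_mul_of_nonneg_left (mul_le_mul_of_nonneg_right (hin x) (by positivity)) (hpK x)
          _ = _ := by rw [← Finset.sum_mul, hpK1]; ring
      have hnum : ∑ x, ∑ x', pK x * (pK x' * ((dot (w x) (w x') - overlap x.1.1 x'.1.1) *
          (D x * D x'))) =
          (∑ c, numK (fun x => u x.2 c) (γ, η) ^ 2) +
            (∑ x, ∑ x', pK x * (pK x' * (same x x' * (D x * D x')))) -
            ∑ i, numK (fun x => unitVec x.1 i) (γ, η) ^ 2 := by
        have e3 : ∀ {J : Type} [Fintype J] (F : J → Conf P × Λ → ℝ),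
            ∑ x, ∑ x', pK x * (pK x' * ((∑ c, F c x.1 * F c x'.1) * (D x * D x'))) =
              ∑ c, numK (F c) (γ, η) ^ 2 := by
          intro J _ F
          simp only [← hsq, Finset.sum_mul, Finset.mul_sum]
          rw [Finset.sum_comm (s := Finset.univ (α := J))]
          exact Finset.sum_congr rfl fun x _ => Finset.sum_comm
        have e4 : ∀ x x', pK x * (pK x' * ((dot (w x) (w x') - overlap x.1.1 x'.1.1) * (D x * D x'))) =
            pK x * (pK x' * ((∑ c, u x.1.2 c * u x'.1.2 c) * (D x * D x'))) +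
              pK x * (pK x' * (same x x' * (D x * D x'))) -
              pK x * (pK x' * ((∑ i, unitVec x.1.1 i * unitVec x'.1.1 i) * (D x * D x'))) := by
          intro x x'; rw [hww]; ring
        rw [Finset.sum_congr rfl fun x _ => Finset.sum_congr rfl fun x' _ => e4 x x']
        simp only [Finset.sum_sub_distrib, Finset.sum_add_distrib]
        rw [e3 (fun c x => u x.2 c), e3 (fun i x => unitVec x.1 i)]
      have hZpos : 0 < ZK (γ, η) := hz.trans_le (hZK _)
      simp only [chordDeriv, hden]
      change (∑ x, ∑ x', pK x * (pK x' * ((dot (w x) (w x') - overlap x.1.1 x'.1.1) *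
        (D x * D x')))) / ZK (γ, η) ^ 2 ≤ _
      rw [hnum]
      have split' : ∀ (a : ι → ℝ) (b : Fin N → ℝ) (S Z : ℝ),
          ((∑ i, a i ^ 2) + S - ∑ i, b i ^ 2) / Z ^ 2 =
            (∑ i, (a i / Z) ^ 2) + S / Z ^ 2 - ∑ i, (b i / Z) ^ 2 := fun a b S Z => by
        simp only [div_pow, ← Finset.sum_div]
        ring
      rw [split']
      have d2 : (∑ x, ∑ x', pK x * (pK x' * (same x x' *
          (dExp f (dot g (w x)) * dExp f (dot g (w x')))))) / ZK (γ, η) ^ 2 ≤ C₂ / K := by
        calc _ ≤ δ * (B * B) / K / ZK (γ, η) ^ 2 := by gcongr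
          _ ≤ δ * (B * B) / K / z ^ 2 := by gcongr; exact hZK _
          _ = C₂ / K := by simp only [C₂]; ring
      set c₀ := 2 * B / z * (1 / z + B / z ^ 2) * err (γ, η)
      have dc : ∑ c, (numK (fun x => u x.2 c) (γ, η) / ZK (γ, η)) ^ 2 ≤
          (∑ c, (num₀ (fun x => u x.2 c) γ / Z₀ γ) ^ 2) + (Fintype.card ι : ℝ) * c₀ := by
        refine (Finset.sum_le_sum (g := fun c => (num₀ (fun x => u x.2 c) γ / Z₀ γ) ^ 2 + c₀)
          fun c _ => ?_).trans_eq (by simp [Finset.sum_add_distrib])
        linarith [(abs_le.1 (hdiff (fun x => u x.2 c) (fun x => huc _ _) (γ, η))).2]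
      have di : ∑ i, (num₀ (fun x => unitVec x.1 i) γ / Z₀ γ) ^ 2 ≤
          ∑ i, (numK (fun x => unitVec x.1 i) (γ, η) / ZK (γ, η)) ^ 2 + (N : ℝ) * c₀ := by
        have := (Finset.sum_le_sum (g := fun i => (numK (fun x => unitVec x.1 i) (γ, η) / ZK (γ, η)) ^ 2 + c₀)
          fun i (_ : i ∈ Finset.univ) => (show (num₀ (fun x => unitVec x.1 i) γ / Z₀ γ) ^ 2 ≤ _ by
            linarith [(abs_le.1 (hdiff (fun x => unitVec x.1 i) (fun x => hsv _ _) (γ, η))).1]))
        refine this.trans_eq ?_
        rw [Finset.sum_add_distrib, Finset.sum_const, Finset.card_univ, Fintype.card_fin,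
          nsmul_eq_mul]
      have ec : C₁ * err (γ, η) = (Fintype.card ι : ℝ) * c₀ + (N : ℝ) * c₀ := by
        simp only [C₁, P₀, c₀]; ring
      simp only [main, pairTerm]
      simp only [num₀, Z₀] at dc di
      linarith
    -- integrate
    have hint : ∫ g, chordDeriv pK f (fun x => x.1.1) w g ∂gam (ι ⊕ (Λ × Fin (k + 1))) ≤
        ∫ γ, main γ ∂gam ι + C₁ * (E₁ / Real.sqrt K) + C₂ / K := by
      set bd : (ι → ℝ) × (Λ × Fin (k + 1) → ℝ) → ℝ := fun q => main q.1 + C₁ * err q + C₂ / K
      have hi1 : Integrable (fun q : (ι → ℝ) × (Λ × Fin (k + 1) → ℝ) => main q.1)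
          ((gam ι).prod (gam (Λ × Fin (k + 1)))) :=
        integrable_bdd (hmain_m.comp measurable_fst) fun q => hmain_b _
      have hi2 := (integrable_bdd (π := (gam ι).prod (gam (Λ × Fin (k + 1)))) herrm herrb)
      have hbd : Integrable bd ((gam ι).prod (gam (Λ × Fin (k + 1)))) :=
        (hi1.add (hi2.const_mul _)).add (integrable_const _)
      have hcm : Measurable fun g => chordDeriv pK f (fun x => x.1.1) w g := by
        have hd : ∀ x, Measurable fun g : ι ⊕ (Λ × Fin (k + 1)) → ℝ => dot g (w x) := fun x =>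
          measurable_dot.comp (measurable_id.prodMk measurable_const)
        exact (Finset.measurable_sum _ fun x _ => Finset.measurable_sum _ fun x' _ =>
          (((((continuous_dExp hs).measurable.comp (hd x)).mul
            ((continuous_dExp hs).measurable.comp (hd x'))).const_mul _).const_mul _).const_mul _).div
          ((Finset.measurable_sum _ fun x _ =>
            ((Real.continuous_exp.comp (continuous_of_smooth hs)).measurable.comp (hd x)).const_mul
              _).pow_const 2)
      have hcb : ∀ g, |chordDeriv pK f (fun x => x.1.1) w g| ≤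
          (∑ x, ∑ x', pK x * (pK x' *
            (|dot (w x) (w x') - overlap x.1.1 x'.1.1| * (B * B)))) / z ^ 2 := fun g => by
        have h1 := (sum_exp_mem hpK hpK1 (F := fun x => f (dot g (w x))) fun x => hs.b0 _).1
        rw [← hz_def] at h1
        simp only [chordDeriv, abs_div, abs_of_pos (pow_pos (hz.trans_le h1) 2)]
        refine div_le_div₀ (Finset.sum_nonneg fun x _ => Finset.sum_nonneg fun x' _ =>
          mul_nonneg (hpK x) (mul_nonneg (hpK x') (mul_nonneg (abs_nonneg _) (mul_self_nonneg _))))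
          ?_ (by positivity) (pow_le_pow_left₀ hz.le h1 2)
        refine (Finset.abs_sum_le_sum_abs _ _).trans (Finset.sum_le_sum fun x _ => ?_)
        refine (Finset.abs_sum_le_sum_abs _ _).trans (Finset.sum_le_sum fun x' _ => ?_)
        rw [abs_mul, abs_mul, abs_mul, abs_mul, abs_of_nonneg (hpK x), abs_of_nonneg (hpK x')]
        gcongr
        · exact hpK x
        · exact hpK x'
        · exact abs_dExp_le hs _
        · exact abs_dExp_le hs _
      calc ∫ g, chordDeriv pK f (fun x => x.1.1) w g ∂gam (ι ⊕ (Λ × Fin (k + 1)))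
          ≤ ∫ g, bd (fun c => g (Sum.inl c), fun d => g (Sum.inr d))
              ∂gam (ι ⊕ (Λ × Fin (k + 1))) :=
            integral_mono (integrable_bdd hcm hcb) (hmp.integrable_comp_of_integrable hbd) hchord
        _ = ∫ q, bd q ∂(gam ι).prod (gam (Λ × Fin (k + 1))) :=
            integral_mp hmp (((hmain_m.comp measurable_fst).add (herrm.const_mul _)).add_const _)
        _ ≤ _ := by
            simp only [bd]
            rw [integral_add (f := fun q => main q.1 + C₁ * err q) (g := fun _ => C₂ / K)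
                (hi1.add (hi2.const_mul _)) (integrable_const _),
              integral_add (f := fun q => main q.1) (g := fun q => C₁ * err q) hi1
                (hi2.const_mul _), integral_const_mul,
              integral_fun_fst (μ := gam ι) (ν := gam (Λ × Fin (k + 1))) main]
            simp only [integral_const, probReal_univ, smul_eq_mul, one_mul]
            gcongr
            rw [integral_prod _ hi2]
            refine (integral_mono hi2.integral_prod_left (integrable_const (E₁ / Real.sqrt K))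
              herr).trans (by simp)
    have hK1' : (1 : ℝ) ≤ K := by simp only [hK_def]; exact_mod_cast Nat.succ_pos k
    have hK1 : Real.sqrt K ≤ K := Real.sqrt_le_iff.2 ⟨hK.le, by nlinarith⟩
    have hC2K : C₂ / K ≤ C₂ / Real.sqrt K :=
      div_le_div_of_nonneg_left (by simp only [C₂]; positivity) (Real.sqrt_pos.2 hK) hK1
    have efin : (1 / 2 * (C₁ * E₁) + 1 / 2 * C₂) / Real.sqrt K =
        1 / 2 * (C₁ * (E₁ / Real.sqrt K)) + 1 / 2 * (C₂ / Real.sqrt K) := by ring
    rw [efin]
    rw [eR] at hch
    linarith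
  refine le_of_forall_pos_le_add fun ε hε => ?_
  set C₃ := 1 / 2 * (C₁ * E₁) + 1 / 2 * C₂
  have ht : Filter.Tendsto (fun k : ℕ => C₃ / Real.sqrt (k + 1 : ℕ)) Filter.atTop (nhds 0) :=
    tendsto_const_nhds.div_atTop (Real.tendsto_sqrt_atTop.comp
      (tendsto_natCast_atTop_atTop.comp (Filter.tendsto_add_atTop_nat 1)))
  obtain ⟨k, hk⟩ := (ht.eventually (gt_mem_nhds hε)).exists
  have := key k
  simp only [Z₀, main] at this
  linarith

end Vale.Agent.P157.Parisi.Sphere.Up
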