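import Vale.Agent.P157.Parisi.Sphere.Upper.Step

/-!
Slots on weights of a finite family of unit vectors: a slot carries a pattern with probability
`α N / L`, so the number of patterns is concentrated at `α N`.
-/

noncomputable section

open MeasureTheory ProbabilityTheory Filter
open scoped BigOperators Topology

namespace Vale.Agent.P157.Parisi.Sphere.Up

open Vale.Agent.P157.Parisi.Up

open Vale.Agent.P168 (genNested)
open Vale.Agent.P168.Cascade (Exps)
open Vale.Agent.P168.Upper (integral_mp genNested_bounds)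

variable {r N : ℕ} {P : Pts N} {f : ℝ → ℝ} {A : ℝ}

/-- The mean log-partition of `n` fresh patterns on the weights `u`. -/
def patT (f : ℝ → ℝ) (n : ℕ) (u : Conf P → ℝ) : ℝ :=
  ∫ g : Fin n → Fin N → ℝ, Real.log (∑ σ, u σ * ∏ a, patU f (g a) σ)
    ∂(Measure.pi fun _ : Fin n => gam (Fin N))

lemma patU_pos (f : ℝ → ℝ) (g : Fin N → ℝ) (σ : Conf P) : 0 < patU f g σ := Real.exp_pos _

lemma patU_mem (hs : Smooth f A) (g : Fin N → ℝ) (σ : Conf P) :
    Real.exp (-A) ≤ patU f g σ ∧ patU f g σ ≤ Real.exp A :=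
  ⟨Real.exp_le_exp.2 (abs_le.1 (hs.b0 _)).1, Real.exp_le_exp.2 (abs_le.1 (hs.b0 _)).2⟩

lemma measurable_patU (hs : Smooth f A) (σ : Conf P) :
    Measurable fun g : Fin N → ℝ => patU f g σ :=
  ((continuous_of_smooth hs).measurable.comp
    (measurable_dot.comp (measurable_id.prodMk measurable_const))).exp

lemma sum_mul_pos {u v : Conf P → ℝ} (hu : ∀ σ, 0 < u σ) (hv : ∀ σ, 0 < v σ) :
    0 < ∑ σ, u σ * v σ :=
  Finset.sum_pos (fun σ _ => mul_pos (hu σ) (hv σ)) Finset.univ_nonempty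

/-- Reweighting by factors in `[exp (-c), exp c]` moves a log-sum by at most `c`. -/
lemma abs_log_reweight {u v : Conf P → ℝ} (hu : ∀ σ, 0 < u σ) {c : ℝ}
    (hv : ∀ σ, Real.exp (-c) ≤ v σ ∧ v σ ≤ Real.exp c) :
    |Real.log (∑ σ, u σ * v σ) - Real.log (∑ σ, u σ)| ≤ c := by
  have hv0 : ∀ σ, 0 < v σ := fun σ => (Real.exp_pos _).trans_le (hv σ).1
  have hp := sum_mul_pos hu hv0
  have hq : 0 < ∑ σ, u σ := Finset.sum_pos (fun σ _ => hu σ) Finset.univ_nonempty
  rw [← Real.log_div hp.ne' hq.ne', abs_le, Real.le_log_iff_exp_le (div_pos hp hq),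
    Real.log_le_iff_le_exp (div_pos hp hq), le_div_iff₀ hq, div_le_iff₀ hq, Finset.mul_sum,
    Finset.mul_sum]
  exact ⟨Finset.sum_le_sum fun σ _ => by
      rw [mul_comm (u σ)]; exact mul_le_mul_of_nonneg_right (hv σ).1 (hu σ).le,
    Finset.sum_le_sum fun σ _ => by
      rw [mul_comm (u σ)]; exact mul_le_mul_of_nonneg_right (hv σ).2 (hu σ).le⟩

lemma prod_patU_mem (hs : Smooth f A) {n : ℕ} (g : Fin n → Fin N → ℝ) (σ : Conf P) :
    Real.exp (-(n * A)) ≤ ∏ a, patU f (g a) σ ∧ ∏ a, patU f (g a) σ ≤ Real.exp (n * A) := by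
  simp only [patU, ← Real.exp_sum, Real.exp_le_exp]
  refine abs_le.1 ((Finset.abs_sum_le_sum_abs _ _).trans
    ((Finset.sum_le_sum fun a _ => hs.b0 _).trans_eq (by simp)))

lemma abs_patT_arg (hs : Smooth f A) {n : ℕ} {u : Conf P → ℝ} (hu : ∀ σ, 0 < u σ)
    (g : Fin n → Fin N → ℝ) :
    |Real.log (∑ σ, u σ * ∏ a, patU f (g a) σ) - Real.log (∑ σ, u σ)| ≤ n * A :=
  abs_log_reweight hu (prod_patU_mem hs g)

lemma measurable_patT_arg (hs : Smooth f A) {n : ℕ} (u : Conf P → ℝ) :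
    Measurable fun g : Fin n → Fin N → ℝ => Real.log (∑ σ, u σ * ∏ a, patU f (g a) σ) :=
  (Finset.measurable_sum _ fun σ _ => (Finset.measurable_prod _ fun a _ =>
    (measurable_patU hs σ).comp (measurable_pi_apply a)).const_mul _).log

lemma integrable_patT_arg (hs : Smooth f A) {n : ℕ} {u : Conf P → ℝ} (hu : ∀ σ, 0 < u σ)
    (μ : Measure (Fin n → Fin N → ℝ)) [IsFiniteMeasure μ] :
    Integrable (fun g => Real.log (∑ σ, u σ * ∏ a, patU f (g a) σ)) μ :=
  integrable_bdd (C := |Real.log (∑ σ, u σ)| + n * A) (measurable_patT_arg hs u) fun g => by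
    have h := abs_patT_arg hs hu g
    have := abs_sub_abs_le_abs_sub (Real.log (∑ σ, u σ * ∏ a, patU f (g a) σ))
      (Real.log (∑ σ, u σ))
    linarith

lemma patT_zero (f : ℝ → ℝ) (u : Conf P → ℝ) : patT f 0 u = Real.log (∑ σ, u σ) := by
  simp [patT]

lemma abs_patT_sub (hs : Smooth f A) (n : ℕ) {u : Conf P → ℝ} (hu : ∀ σ, 0 < u σ) :
    |patT f n u - Real.log (∑ σ, u σ)| ≤ n * A := by
  have h := norm_integral_le_of_norm_le_const (μ := Measure.pi fun _ : Fin n => gam (Fin N))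
    (f := fun g => Real.log (∑ σ, u σ * ∏ a, patU f (g a) σ) - Real.log (∑ σ, u σ))
    (C := n * A) (Eventually.of_forall fun g => abs_patT_arg hs hu g)
  rw [integral_sub (integrable_patT_arg hs hu _) (integrable_const _)] at h
  simpa [patT] using h

/-- One pattern can be taken out, and its removal costs at most `A`. -/
lemma patT_succ (hs : Smooth f A) (n : ℕ) {u : Conf P → ℝ} (hu : ∀ σ, 0 < u σ) :
    (patT f (n + 1) u = ∫ g, patT f n (fun σ => u σ * patU f g σ) ∂gam (Fin N)) ∧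
      patT f (n + 1) u ≤ patT f n u + A ∧
      Integrable (fun g => patT f n (fun σ => u σ * patU f g σ)) (gam (Fin N)) := by
  set P0 := Measure.pi fun _ : Fin n => gam (Fin N)
  have hsplit := measurePreserving_piFinSuccAbove (fun _ : Fin (n + 1) => gam (Fin N)) 0
  let G : (Fin N → ℝ) × (Fin n → Fin N → ℝ) → ℝ := fun z =>
    Real.log (∑ σ, u σ * patU f z.1 σ * ∏ a, patU f (z.2 a) σ)
  have hGm : Measurable G := (Finset.measurable_sum _ fun σ _ =>
    (((measurable_patU hs σ).comp measurable_fst).const_mul _).mul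
      (Finset.measurable_prod _ fun a _ => (measurable_patU hs σ).comp
        ((measurable_pi_apply a).comp measurable_snd))).log
  have hu' : ∀ g σ, 0 < u σ * patU f g σ := fun g σ => mul_pos (hu σ) (patU_pos f g σ)
  have hcomp : ∀ z, |G z - Real.log (∑ σ, u σ * ∏ a, patU f (z.2 a) σ)| ≤ A := fun z => by
    have hv : ∀ σ, 0 < u σ * ∏ a, patU f (z.2 a) σ := fun σ =>
      mul_pos (hu σ) (Finset.prod_pos fun a _ => patU_pos f _ σ)
    simpa only [G, mul_right_comm] using abs_log_reweight hv fun σ => patU_mem hs z.1 σ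
  have hGb : ∀ z, |G z| ≤ |Real.log (∑ σ, u σ)| + n * A + A := fun z => by
    have h1 := hcomp z
    have h2 := abs_patT_arg hs hu z.2
    rw [abs_le] at h1 h2 ⊢
    constructor <;> linarith [abs_nonneg (Real.log (∑ σ, u σ)),
      neg_abs_le (Real.log (∑ σ, u σ)), le_abs_self (Real.log (∑ σ, u σ))]
  have hGi : Integrable G ((gam (Fin N)).prod P0) := integrable_bdd hGm hGb
  have e : patT f (n + 1) u = ∫ z, G z ∂(gam (Fin N)).prod P0 := by
    rw [← integral_mp hsplit hGm, patT]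
    refine integral_congr_ae (Eventually.of_forall fun g => ?_)
    simp only [G, Fin.prod_univ_succ, mul_assoc]
    rfl
  refine ⟨by rw [e, integral_prod _ hGi]; rfl, ?_, hGi.integral_prod_left⟩
  rw [e, integral_prod_symm _ hGi, patT]
  refine (integral_mono hGi.integral_prod_right
    ((integrable_patT_arg hs hu P0).add (integrable_const A)) fun g => ?_).trans_eq ?_
  · calc ∫ x, G (x, g) ∂gam (Fin N)
        ≤ ∫ _x, (Real.log (∑ σ, u σ * ∏ a, patU f (g a) σ) + A) ∂gam (Fin N) :=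
          integral_mono (integrable_bdd (hGm.comp (measurable_id.prodMk measurable_const))
            fun x => hGb (x, g)) (integrable_const _) fun x => by
              have := (abs_le.1 (hcomp (x, g))).2
              linarith
      _ = _ := by simp
  · simp only [Pi.add_apply]
    rw [integral_add (integrable_patT_arg hs hu P0) (integrable_const A)]
    simp [P0]

/-- The slots on weights that do not depend on the marks. -/
def slotsC (ε : ℝ) (f : ℝ → ℝ) (m : Fin r → ℝ) (j : ℕ) (u : Conf P → ℝ) : ℝ :=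
  slots ε f (Measure.dirac ()) m j fun σ (_ : Fin r → Unit) => u σ

lemma slotsC_succ (ε : ℝ) (f : ℝ → ℝ) (m : Fin r → ℝ) (j : ℕ) (u : Conf P → ℝ) :
    slotsC ε f m (j + 1) u = ε * (∫ g, slotsC ε f m j (fun σ => u σ * patU f g σ) ∂gam (Fin N)) +
      (1 - ε) * slotsC ε f m j u := rfl

lemma slotsC_zero {m : Fin r → ℝ} (hm : Exps m) (ε : ℝ) (f : ℝ → ℝ) {u : Conf P → ℝ}
    (hu : ∀ σ, 0 < u σ) : slotsC ε f m 0 u = Real.log (∑ σ, u σ) := by
  simp only [slotsC, slots, Phi]
  congr 1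
  obtain ⟨h1, h2⟩ := genNested_bounds (Measure.dirac ()) m hm.pos
    (fun _ : Fin r → Unit => ∑ σ, u σ) measurable_const
    (Finset.sum_pos (fun σ _ => hu σ) Finset.univ_nonempty) fun _ => ⟨le_rfl, le_rfl⟩
  exact le_antisymm h2 h1

lemma wbdd_slotsC {u : Conf P → ℝ} (hu : ∀ σ, 0 < u σ) :
    WBdd (∑ σ, (u σ + (u σ)⁻¹)) fun σ (_ : Fin r → Unit) => u σ := fun σ => by
  have hpos : ∀ τ, 0 < u τ + (u τ)⁻¹ := fun τ => add_pos (hu τ) (inv_pos.2 (hu τ))
  have hle := Finset.single_le_sum (fun τ _ => (hpos τ).le) (Finset.mem_univ σ)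
  have hC : 0 < ∑ τ, (u τ + (u τ)⁻¹) := (hpos σ).trans_le hle
  have hi := inv_pos.2 (hu σ)
  exact ⟨hC, measurable_const, fun _ => ⟨(inv_le_comm₀ hC (hu σ)).2 (by linarith [hu σ]),
    by linarith⟩⟩

lemma integrable_slotsC (hs : Smooth f A) {m : Fin r → ℝ} (hm : Exps m) (ε : ℝ) (j : ℕ)
    {u : Conf P → ℝ} (hu : ∀ σ, 0 < u σ) :
    Integrable (fun g => slotsC ε f m j fun σ => u σ * patU f g σ) (gam (Fin N)) := by
  have hw := wbdd_slotsC (r := r) hu
  obtain ⟨K, hK⟩ := exists_slots_bound hs hm (Measure.dirac ()) ε j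
    ((∑ σ, (u σ + (u σ)⁻¹)) * Real.exp A) (N := N)
  exact integrable_bdd (measurable_slots hs (Measure.dirac ()) ε m j
    (fun g σ (_ : Fin r → Unit) => u σ * patU f g σ) (measW_patU_const hs hw))
    fun g => hK _ (wbdd_patU hs hw g)

variable {m : Fin r → ℝ} {ε : ℝ}

lemma slotsC_ge_zero (hs : Smooth f A) (hm : Exps m) (h0 : 0 ≤ ε) (h1 : ε ≤ 1) :
    ∀ (j : ℕ) (u : Conf P → ℝ), (∀ σ, 0 < u σ) →
      Real.log (∑ σ, u σ) - A * (j * ε) ≤ slotsC ε f m j u
  | 0, u, hu => by rw [slotsC_zero hm ε f hu]; simp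
  | j + 1, u, hu => by
    have hA : ∫ g, slotsC ε f m j (fun σ => u σ * patU f g σ) ∂gam (Fin N) ≥
        Real.log (∑ σ, u σ) - A - A * (j * ε) := by
      refine le_trans (le_of_eq ?_) (integral_mono
        (f := fun _ => Real.log (∑ σ, u σ) - A - A * (j * ε)) (integrable_const _)
        (integrable_slotsC hs hm ε j hu) fun g => ?_)
      · simp
      · have a := slotsC_ge_zero hs hm h0 h1 j _ fun σ => mul_pos (hu σ) (patU_pos f g σ)
        have b := (abs_le.1 (abs_log_reweight hu fun σ => patU_mem hs g σ)).1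
        linarith
    have hB := slotsC_ge_zero hs hm h0 h1 j u hu
    rw [slotsC_succ]
    push_cast
    nlinarith [mul_le_mul_of_nonneg_left hA h0, mul_le_mul_of_nonneg_left hB (sub_nonneg.2 h1)]

/-- The slots are above `n` patterns, up to the second moment of the number of patterns. -/
lemma slotsC_ge (hs : Smooth f A) (hm : Exps m) (h0 : 0 ≤ ε) (h1 : ε ≤ 1) {c : ℝ} (hc : 0 < c) :
    ∀ (j n : ℕ) (u : Conf P → ℝ), (∀ σ, 0 < u σ) →
      patT f n u - A * (((j * ε - n) ^ 2 + j * ε * (1 - ε)) / (2 * c) + c / 2) ≤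
        slotsC ε f m j u := by
  have hA : 0 ≤ A := (abs_nonneg _).trans (hs.b0 0)
  have amgm : ∀ d v : ℝ, 0 ≤ v → d ≤ (d ^ 2 + v) / (2 * c) + c / 2 := fun d v hv => by
    rw [div_add_div _ _ (by positivity) two_ne_zero, le_div_iff₀ (by positivity)]
    nlinarith [sq_nonneg (d - c)]
  intro j
  induction j with
  | zero =>
    intro n u hu
    rw [slotsC_zero hm ε f hu]
    have h := (abs_le.1 (abs_patT_sub hs n hu)).2
    have := mul_le_mul_of_nonneg_left (amgm (n : ℝ) 0 le_rfl) hA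
    simp only [Nat.cast_zero, zero_mul, zero_sub, neg_sq]
    linarith
  | succ j ih =>
    intro n u hu
    rcases n with _ | k
    · have h := slotsC_ge_zero hs hm h0 h1 (j + 1) u hu
      have hv : 0 ≤ ((j + 1 : ℕ) : ℝ) * ε * (1 - ε) :=
        mul_nonneg (by positivity) (sub_nonneg.2 h1)
      have := mul_le_mul_of_nonneg_left (amgm (((j + 1 : ℕ) : ℝ) * ε) _ hv) hA
      rw [patT_zero]
      simp only [Nat.cast_zero, sub_zero]
      linarith
    · obtain ⟨e, -, hi⟩ := patT_succ hs k hu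
      have ha : patT f (k + 1) u -
          A * (((j * ε - k) ^ 2 + j * ε * (1 - ε)) / (2 * c) + c / 2) ≤
            ∫ g, slotsC ε f m j (fun σ => u σ * patU f g σ) ∂gam (Fin N) := by
        refine le_trans (le_of_eq ?_) (integral_mono (hi.sub (integrable_const _))
          (integrable_slotsC hs hm ε j hu) fun g => ih k _ fun σ =>
            mul_pos (hu σ) (patU_pos f g σ))
        simp only [Pi.sub_apply]
        rw [integral_sub hi (integrable_const _), ← e]
        simp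
      have hb := ih (k + 1) u hu
      rw [slotsC_succ]
      push_cast at hb ⊢
      refine le_trans (le_of_eq ?_) (add_le_add (mul_le_mul_of_nonneg_left ha h0)
        (mul_le_mul_of_nonneg_left hb (sub_nonneg.2 h1)))
      field_simp
      ring

/-- Slots at the start dominate `⌊α N⌋` patterns. -/
lemma slots_init (hs : Smooth f A) (hm : Exps m) {α : ℝ} (hα : 0 ≤ α) {L : ℕ} (hL : 0 < L)
    (hε : α * N / L ≤ 1) {u : Conf P → ℝ} (hu : ∀ σ, 0 < u σ) :
    patT f ⌊α * N⌋₊ u ≤
      slots (α * N / L) f (Measure.dirac ()) m L (fun σ (_ : Fin r → Unit) => u σ) +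
      A * (Real.sqrt (α * N) + 1) := by
  have hA : 0 ≤ A := (abs_nonneg _).trans (hs.b0 0)
  set μ := α * (N : ℝ) with hμ
  have hμ0 : 0 ≤ μ := mul_nonneg hα (Nat.cast_nonneg N)
  set n := ⌊μ⌋₊ with hn
  have h := slotsC_ge hs hm (ε := μ / L) (by positivity) hε
    (c := Real.sqrt μ + 1) (by positivity) L n u hu
  simp only [slotsC] at h
  have hb : A * (((L * (μ / L) - n) ^ 2 + L * (μ / L) * (1 - μ / L)) / (2 * (Real.sqrt μ + 1)) +
      (Real.sqrt μ + 1) / 2) ≤ A * (Real.sqrt μ + 1) := by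
    refine mul_le_mul_of_nonneg_left ?_ hA
    have hL0 : (L : ℝ) ≠ 0 := Nat.cast_ne_zero.2 hL.ne'
    have e : (L : ℝ) * (μ / L) = μ := mul_div_cancel₀ μ hL0
    rw [e]
    have f1 := Nat.floor_le hμ0
    have f2 := Nat.lt_floor_add_one μ
    rw [← hn] at f1 f2
    have hsq := Real.mul_self_sqrt hμ0
    have hnn := Real.sqrt_nonneg μ
    have hq : μ * (μ / L) ≥ 0 := by positivity
    rw [div_add_div _ _ (by positivity) two_ne_zero, div_le_iff₀ (by positivity)]
    nlinarith
  linarith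

end Vale.Agent.P157.Parisi.Sphere.Up
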