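import Vale.Agent.P157.Parisi.Sphere.Upper.Pressure

/-!
The upper bound on the sphere.
-/

noncomputable section

open MeasureTheory ProbabilityTheory Filter
open scoped BigOperators Topology

namespace Vale.Agent.P157.Parisi.Sphere.Up

open Vale.Agent.P157.Parisi.Up
open Vale.Agent.P168.Cascade (Exps)

variable {r : ℕ} {α : ℝ} {f : ℝ → ℝ} {m : Fin r → ℝ} {q : Fin (r + 1) → ℝ}

lemma precision_last : precision α f m q (Fin.last r) =
    1 + α * (slope f m q (Fin.last r) - ∑ k, weight m k * q k * slope f m q k) := by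
  simp [precision, fun i : Fin r => (not_le.2 i.isLt : ¬ r ≤ i.val)]

lemma precision_step (i : Fin r) :
    precision α f m q i.succ - precision α f m q i.castSucc =
      m i * (α * slope f m q i.succ - α * slope f m q i.castSucc) := by
  set T : Fin r → ℝ := fun j => m j * (slope f m q j.succ - slope f m q j.castSucc)
  have e : ∀ j : Fin r, (if i.castSucc.val ≤ j.val then T j else 0) =
      (if i.succ.val ≤ j.val then T j else 0) + if j = i then T j else 0 := fun j => by
    simp only [Fin.val_succ, Fin.val_castSucc]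
    rcases lt_trichotomy i.val j.val with h | h | h
    · rw [if_pos h.le, if_pos (Nat.succ_le_of_lt h), if_neg (fun e => h.ne (by rw [e]))]
      ring
    · rw [if_pos h.le, if_neg (by omega), if_pos (Fin.ext h.symm)]
      ring
    · rw [if_neg (by omega), if_neg (by omega), if_neg (fun e => h.ne (by rw [e]))]
      ring
  simp only [precision]
  rw [Finset.sum_congr rfl fun j _ => e j, Finset.sum_add_distrib,
    Finset.sum_ite_eq' Finset.univ i T, if_pos (Finset.mem_univ i)]
  simp only [T]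
  ring

lemma sum_weight_mul : ∀ {r : ℕ} (m : Fin r → ℝ) (c : Fin (r + 1) → ℝ),
    ∑ k, weight m k * c k = c (Fin.last r) - ∑ i : Fin r, m i * (c i.succ - c i.castSucc) := by
  intro r m c
  simp only [weight, sub_mul, Finset.sum_sub_distrib, mul_sub]
  rw [Fin.sum_univ_castSucc (f := fun k => (Fin.snoc m 1 : Fin (r + 1) → ℝ) k * c k),
    Fin.sum_univ_succ (f := fun k => (Fin.cons 0 m : Fin (r + 1) → ℝ) k * c k)]
  simp only [Fin.snoc_castSucc, Fin.snoc_last, Fin.cons_zero, Fin.cons_succ]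
  ring

lemma one_le_precision (hP : IsPath m q) (hα : 0 ≤ α) (hmono : Monotone (slope f m q))
    (hnn : ∀ p, 0 ≤ slope f m q p) (p : Fin (r + 1)) : 1 ≤ precision α f m q p := by
  have hm : Exps m := ⟨hP.pos, hP.lt_one, hP.strictMono⟩
  set c := slope f m q
  set T : Fin r → ℝ := fun j => m j * (c j.succ - c j.castSucc)
  have hT : ∀ j, 0 ≤ T j := fun j =>
    mul_nonneg (hP.pos j).le (sub_nonneg.2 (hmono (Fin.castSucc_lt_succ (i := j)).le))
  have hS : ∑ k, weight m k * q k * c k ≤ ∑ k, weight m k * c k :=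
    Finset.sum_le_sum fun k _ => mul_le_mul_of_nonneg_right
      (mul_le_of_le_one_right (weight_nonneg hm k) ((hP.mono (Fin.le_last k)).trans hP.le_one))
      (hnn k)
  rw [sum_weight_mul] at hS
  have h1 : ∑ i : Fin r, (if p.val ≤ i.val then T i else 0) ≤ ∑ i, T i :=
    Finset.sum_le_sum fun i _ => by
      split_ifs
      · exact le_rfl
      · exact hT i
  have h2 := mul_le_mul_of_nonneg_left hS hα
  have h3 := mul_le_mul_of_nonneg_left h1 hα
  simp only [precision, T, c] at *
  linarith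

/-- The upper bound on the sphere. -/
theorem upperS (hT : TiltFactorStmt) (hTS : TreeShapeStmt) (hSl : SlopeStmt)
    (hB : BridgeStmt) : UpperS := by
  intro α A f hα hs hconc ξ ε hε
  have hP := ξ.isPath
  have hm : Exps ξ.m := ⟨hP.pos, hP.lt_one, hP.strictMono⟩
  obtain ⟨hmono, hsl⟩ := hSl f A hs ξ
  set c := slope f ξ.m ξ.q
  set ρ : Fin (ξ.r + 1) → ℝ := fun p => α * c p
  have hρ : Monotone ρ := fun p p' h => mul_le_mul_of_nonneg_left (hmono h) hα.le
  have hρ0 : 0 ≤ ρ 0 := mul_nonneg hα.le (hsl 0).1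
  set P0 := precision α f ξ.m ξ.q
  have hP1 : ∀ p, 1 ≤ P0 p := one_le_precision hP hα.le hmono fun p => (hsl p).1
  set Dr := P0 (Fin.last ξ.r) with hDr
  set S := ∑ p : Fin (ξ.r + 1), weight ξ.m p * (c p * ξ.q p) with hS
  have hDrS : Dr = 1 + α * (c (Fin.last ξ.r) - S) := by
    rw [hDr, hS]
    refine precision_last.trans ?_
    congr 3
    exact Finset.sum_congr rfl fun p _ => by ring
  let D : ℝ → Fin (ξ.r + 1) → ℝ := fun e p => Dr - 1 / (1 - e) * (Dr - P0 p)
  let V : ℝ → ℝ := fun e => α * patValue f ξ.m ξ.q +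
    (e * |1 - Dr| - Real.log Dr) / 2 + 1 / (1 - e) * ρ 0 / (2 * D e 0) + quadConst ξ.m (D e)
  have hD0 : ∀ p, D 0 p = P0 p := fun p => by simp [D]
  have hV0 : V 0 = parisiSphere α f ξ.m ξ.q := by
    simp only [V, hD0, parisiSphere, siteSphere, quadConst, ρ, sub_zero, zero_mul, zero_sub,
      div_one, one_mul]
    simp only [P0, c, Dr]
    ring
  have hDc : ∀ p, ContinuousAt (fun e => D e p) 0 := fun p =>
    continuousAt_const.sub ((continuousAt_const.div (continuousAt_const.sub continuousAt_id)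
      (by norm_num)).mul continuousAt_const)
  have hD0pos : ∀ p, 0 < D 0 p := fun p => by rw [hD0]; linarith [hP1 p]
  have hVc : ContinuousAt V 0 := by
    refine ((continuousAt_const.add (((continuousAt_id.mul continuousAt_const).sub
      continuousAt_const).div_const 2)).add (((continuousAt_const.div
        (continuousAt_const.sub continuousAt_id) (by norm_num)).mul continuousAt_const).div
      (continuousAt_const.mul (hDc 0)) (mul_ne_zero two_ne_zero (hD0pos 0).ne'))).add ?_
    simp only [quadConst]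
    refine tendsto_finsetSum _ fun i _ => ?_
    exact (((hDc i.succ).div (hDc i.castSucc) (hD0pos _).ne').log
      (div_pos (hD0pos _) (hD0pos _)).ne').div_const _
  have hev : ∀ᶠ e in 𝓝[>] (0 : ℝ), V e ≤ parisiSphere α f ξ.m ξ.q + ε / 2 ∧ (∀ p, 0 < D e p) ∧
      e < 1 ∧ 0 < e := by
    refine ((hVc.tendsto.eventually (eventually_le_nhds (by rw [hV0]; linarith))).filter_mono
      nhdsWithin_le_nhds).and (((eventually_all.2 fun p =>
        (hDc p).tendsto.eventually (eventually_gt_nhds (hD0pos p))).filter_mono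
        nhdsWithin_le_nhds).and (((eventually_lt_nhds one_pos).filter_mono
          nhdsWithin_le_nhds).and eventually_mem_nhdsWithin))
  obtain ⟨e, hVe, hDe, he1, he0⟩ := hev.exists
  have hstep : ∀ i : Fin ξ.r, D e i.succ - D e i.castSucc =
      ξ.m i * (1 / (1 - e) * ρ i.succ - 1 / (1 - e) * ρ i.castSucc) := fun i => by
    have h : P0 i.succ - P0 i.castSucc = ξ.m i * (ρ i.succ - ρ i.castSucc) := precision_step i
    simp only [D]
    linear_combination (1 / (1 - e)) * h
  have hlast : D e (Fin.last ξ.r) = Dr := by simp only [D, Dr, sub_self, mul_zero, sub_zero]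
  have hN' : Tendsto (fun N : ℕ => A * (Real.sqrt α / Real.sqrt N + 1 / N) + Real.log 2 / N)
      atTop (𝓝 0) := by
    have h1 := (tendsto_const_nhds (x := Real.sqrt α)).div_atTop
      (Real.tendsto_sqrt_atTop.comp (tendsto_natCast_atTop_atTop (R := ℝ)))
    simpa [Function.comp_def] using
      ((h1.add tendsto_one_div_atTop_nhds_zero_nat).const_mul A).add
        (tendsto_const_div_atTop_nhds_zero_nat (Real.log 2))
  filter_upwards [hN'.eventually (eventually_le_nhds (by positivity : (0 : ℝ) < ε / 10)),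
    (tendsto_const_div_sqrt (2 * gaussC)).eventually (eventually_le_nhds he0),
    eventually_gt_atTop 0] with N hNε hNG hN
  have hN0 : (0 : ℝ) < N := Nat.cast_pos.2 hN
  have hsN : 0 < Real.sqrt N := Real.sqrt_pos.2 hN0
  have hbig : 2 * gaussC * Real.sqrt N ≤ e * N := by
    have := mul_le_mul_of_nonneg_right hNG hN0.le
    rw [div_mul_eq_mul_div, mul_div_assoc, Real.div_sqrt] at this
    exact this
  have ha' : Tendsto (fun n : ℕ => α * (1 - svar n) * (N * A ^ 2)) atTop (𝓝 0) := by
    simpa using (((tendsto_const_nhds (x := (1 : ℝ))).sub tendsto_svar).const_mul α).mul_const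
      ((N : ℝ) * A ^ 2)
  obtain ⟨n, hn⟩ := (ha'.eventually (eventually_le_nhds (by positivity : (0 : ℝ) < ε / 10))).exists
  set a : ℝ := (n : ℝ) with ha_def
  have ha : 0 ≤ a := Nat.cast_nonneg n
  set K : ℝ := N * (fieldLen ρ * a)
  have hs0 : Tendsto (fun L : ℕ => Real.sqrt (1 / (L : ℝ))) atTop (𝓝 0) := by
    simpa using tendsto_one_div_atTop_nhds_zero_nat.sqrt
  obtain ⟨L, hL, hprob, hsmall, herr⟩ :
      ∃ L : ℕ, 0 < L ∧ α * N / L ≤ 1 ∧ Real.sqrt (1 / (L : ℝ)) * K ≤ 1 / 10 ∧
        20 * (Real.sqrt (1 / (L : ℝ)) * K ^ 3) ≤ N * (ε / 10) := by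
    have h1 := (tendsto_const_div_atTop_nhds_zero_nat (α * N)).eventually
      (eventually_le_nhds one_pos)
    have h2 := (hs0.mul_const K).eventually
      (eventually_le_nhds (by norm_num : (0 : ℝ) * K < 1 / 10))
    have h3 := ((hs0.mul_const (K ^ 3)).const_mul 20).eventually
      (eventually_le_nhds (by simp; positivity : (20 : ℝ) * (0 * K ^ 3) < N * (ε / 10)))
    obtain ⟨L, hL, a1, a2, a3⟩ := ((eventually_gt_atTop 0).and (h1.and (h2.and h3))).exists
    exact ⟨L, hL, a1, a2, a3⟩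
  set B := Real.sqrt N * (N * (Real.sqrt (1 / (L : ℝ)) * (L * (fieldLen ρ * a))))
  obtain ⟨tol, htol, ht1, ht2⟩ : ∃ tol : ℝ, 0 < tol ∧ B * tol ≤ N * (ε / 10) ∧
      A * α * (N * N) * tol ≤ N * (ε / 10) := by
    have h : ∀ C : ℝ, ∀ᶠ t in 𝓝[>] (0 : ℝ), C * t ≤ N * (ε / 10) := fun C =>
      ((continuousAt_const.mul continuousAt_id).tendsto.eventually
        (eventually_le_nhds (by simp; positivity))).filter_mono nhdsWithin_le_nhds
    obtain ⟨t, h0, h1, h2⟩ := ((eventually_mem_nhdsWithin).and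
      ((h B).and (h (A * α * (N * N))))).exists
    exact ⟨t, h0, h1, h2⟩
  obtain ⟨cl⟩ := exists_cells hN htol
  have hPar : Params (ptsOf cl) ξ f A α a L :=
    ⟨noZero_ptsOf cl, hs, hconc, hα, ha, hL, hN, hprob, hsmall⟩
  have s0 := pressure_le_cells hs α hN htol.le cl
  have s1 := slots_init (P := ptsOf cl) hs hm hα.le hL hprob (cellU_pos cl)
  have s2 := slots_le hT hTS hSl hB hPar hm (Measure.dirac ()) L _ _ (wbdd_cellW cl (r := ξ.r))
  have s3 := fields_cells_le hN htol.le cl he0 he1 hbig ha hm hρ hρ0 hDe hstep hL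
  change patT f ⌊α * N⌋₊ (cellU cl) ≤
    slots (α * N / L) f (Measure.dirac ()) ξ.m L (cellW cl) + A * (Real.sqrt (α * N) + 1) at s1
  rw [hlast] at s3
  have hL0 : (0 : ℝ) < L := Nat.cast_pos.2 hL
  have hcube : (L : ℝ) * fieldM (1 / (L : ℝ)) a N ρ ^ 3 = Real.sqrt (1 / (L : ℝ)) * K ^ 3 := by
    have hsq : Real.sqrt (1 / (L : ℝ)) * Real.sqrt (1 / (L : ℝ)) = 1 / L :=
      Real.mul_self_sqrt (by positivity)
    calc (L : ℝ) * fieldM (1 / (L : ℝ)) a N ρ ^ 3
        = (L * (Real.sqrt (1 / (L : ℝ)) * Real.sqrt (1 / (L : ℝ)))) *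
            (Real.sqrt (1 / (L : ℝ)) * K ^ 3) := by simp only [fieldM, K]; ring
      _ = _ := by rw [hsq, mul_one_div_cancel hL0.ne', one_mul]
  have hC : (L : ℝ) * stepC ξ f A α a L N =
      N * (α * patValue f ξ.m ξ.q + α / 2 * S - α / 2 * c (Fin.last ξ.r) +
        α * (1 - svar a) * (N * A ^ 2)) + 20 * (Real.sqrt (1 / (L : ℝ)) * K ^ 3) := by
    rw [← hcube, stepC, ← hS]
    field_simp
    ring
  have herrN : A * (Real.sqrt (α * N) + 1) + Real.log 2 ≤ N * (ε / 10) := by
    refine le_trans (le_of_eq ?_) (mul_le_mul_of_nonneg_left hNε hN0.le)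
    calc A * (Real.sqrt (α * N) + 1) + Real.log 2
        = A * (Real.sqrt α * ((N : ℝ) / Real.sqrt N) + (N : ℝ) / N) + Real.log 2 * (N / N) := by
          rw [Real.sqrt_mul hα.le, Real.div_sqrt, div_self hN0.ne', mul_one]
      _ = _ := by ring
  have hfl : A * tol * ((⌊α * (N : ℝ)⌋₊ : ℝ) * N) ≤ N * (ε / 10) := by
    refine le_trans ?_ ht2
    have hA : 0 ≤ A := smooth_nonneg hs
    have := mul_le_mul_of_nonneg_left (mul_le_mul_of_nonneg_right
      (Nat.floor_le (show 0 ≤ α * (N : ℝ) by positivity)) hN0.le) (mul_nonneg hA htol.le)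
    linarith
  have hbudget : N * V e = N * (α * patValue f ξ.m ξ.q + α / 2 * S - α / 2 * c (Fin.last ξ.r)) +
      (gaussCost N e Dr - Real.log 2) +
      N * (1 / (1 - e) * ρ 0 / (2 * D e 0) + quadConst ξ.m (D e)) := by
    simp only [gaussCost, V]
    rw [hDrS]
    ring
  refine le_of_mul_le_mul_left ?_ hN0
  have h5 := mul_le_mul_of_nonneg_left hVe hN0.le
  have h6 := mul_le_mul_of_nonneg_left hn hN0.le
  have h7 : Real.sqrt N * tol * (N * (Real.sqrt (1 / (L : ℝ)) * (L * (fieldLen ρ * a)))) ≤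
      N * (ε / 10) := le_trans (le_of_eq (by simp only [B]; ring)) ht1
  have h8 : 0 ≤ (N : ℝ) * ε := by positivity
  linarith

end Vale.Agent.P157.Parisi.Sphere.Up
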