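import Vale.Agent.P157.Parisi.Sphere.Upper.Discrete
import Vale.Agent.P157.Parisi.Sphere.Upper.Site

/-!
The pressure on the sphere against the pattern average over small cells.
-/

noncomputable section

open MeasureTheory ProbabilityTheory Filter
open scoped BigOperators Topology

namespace Vale.Agent.P157.Parisi.Sphere.Up

open Vale.Agent.P157.Parisi.Up

lemma integral_abs_gauss_le :
    Integrable (fun x : ℝ => |x|) (gaussianReal 0 1) ∧ ∫ x, |x| ∂gaussianReal 0 1 ≤ 1 := by
  have hi : Integrable (fun x : ℝ => |x|) (gaussianReal 0 1) :=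
    (IsGaussian.memLp_two_id.integrable one_le_two).abs
  have h2 : ∫ x, x ^ 2 ∂gaussianReal 0 1 = 1 := by
    have h := variance_eq_sub (μ := gaussianReal 0 1) (X := id) IsGaussian.memLp_two_id
    rw [variance_id_gaussianReal] at h
    simpa using h.symm
  have hsq : Integrable (fun x : ℝ => x ^ 2) (gaussianReal 0 1) :=
    IsGaussian.memLp_two_id.integrable_sq
  refine ⟨hi, (integral_mono hi ((hsq.add (integrable_const (1 : ℝ))).div_const 2) fun x => ?_).trans
    (le_of_eq ?_)⟩
  · simp only [Pi.add_apply]
    nlinarith [sq_nonneg (|x| - 1), sq_abs x]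
  · simp only [Pi.add_apply]
    rw [integral_div, integral_add hsq (integrable_const _), h2]
    simp

/-- The pressure on the sphere is below the pattern average on cells. -/
lemma pressure_le_cells {f : ℝ → ℝ} {A : ℝ} (hs : Smooth f A) (α : ℝ) {N : ℕ} (hN : 0 < N)
    {tol : ℝ} (ht : 0 ≤ tol) (c : Cells N tol) :
    (N : ℝ) * meanPressure sphereLaw α f N ≤
      patT f ⌊α * N⌋₊ (cellU c) + A * tol * (⌊α * N⌋₊ * N) := by
  have := isProb_sphere hN
  have hA := smooth_nonneg hs
  have hfc := continuous_of_smooth hs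
  set M := ⌊α * N⌋₊
  set H : (Fin M → Fin N → ℝ) → (Fin N → ℝ) → ℝ := fun g x =>
    ∑ a, f ((∑ i, g a i * x i) / Real.sqrt N)
  have hHm : Measurable (Function.uncurry H) := by
    simp only [H, Function.uncurry_def]
    fun_prop
  have hHb : ∀ g x, |H g x| ≤ M * A := fun g x =>
    (Finset.abs_sum_le_sum_abs _ _).trans ((Finset.sum_le_sum fun a _ => hs.b0 _).trans_eq (by simp))
  have hlip : ∀ s t, |f s - f t| ≤ A * |s - t| := fun s t => by
    simpa [Real.norm_eq_abs] using Convex.norm_image_sub_le_of_norm_deriv_le (s := Set.univ)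
      (C := A) (fun x _ => hs.d0 x) (fun x _ => by simpa [Real.norm_eq_abs] using hs.b1 x)
      convex_univ (Set.mem_univ t) (Set.mem_univ s)
  set S : (Fin M → Fin N → ℝ) → ℝ := fun g => ∑ a, ∑ i, |g a i|
  have hpt : ∀ g, lint (sphereLaw N) (H g) ≤
      Real.log (∑ σ, cellU c σ * ∏ a, patU f (g a) σ) + A * tol * S g := fun g => by
    set Hπ : (Fin N → ℝ) → ℝ := fun v => ∑ a, f (dot (g a) v)
    have hHπm : Measurable fun x => Hπ (c.π x) := by
      have : Measurable Hπ := by simp only [Hπ, dot]; fun_prop
      exact this.comp c.meas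
    have hHπb : ∀ x, |Hπ (c.π x)| ≤ M * A := fun x =>
      (Finset.abs_sum_le_sum_abs _ _).trans
        ((Finset.sum_le_sum fun a _ => hs.b0 _).trans_eq (by simp))
    have e : ∑ σ, cellU c σ * ∏ a, patU f (g a) σ = ∫ x, Real.exp (Hπ (c.π x)) ∂sphereLaw N := by
      rw [c.integral_eq fun v => Real.exp (Hπ v)]
      refine Finset.sum_congr rfl fun σ _ => ?_
      simp only [patU, ← Real.exp_sum, Hπ]
      rfl
    have hnear : ∀ᵐ x ∂sphereLaw N, H g x ≤ Hπ (c.π x) + A * tol * S g := by
      filter_upwards [c.near] with x hx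
      have hb : ∀ a, f ((∑ i, g a i * x i) / Real.sqrt N) ≤
          f (dot (g a) (c.π x)) + A * tol * ∑ i, |g a i| := fun a => by
        have h1 := (le_abs_self _).trans (hlip ((∑ i, g a i * x i) / Real.sqrt N) (dot (g a) (c.π x)))
        have h2 : |(∑ i, g a i * x i) / Real.sqrt N - dot (g a) (c.π x)| ≤ tol * ∑ i, |g a i| := by
          rw [dot, Finset.sum_div, ← Finset.sum_sub_distrib, Finset.mul_sum]
          refine (Finset.abs_sum_le_sum_abs _ _).trans (Finset.sum_le_sum fun i _ => ?_)
          rw [mul_div_assoc, ← mul_sub, abs_mul, mul_comm tol, abs_sub_comm]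
          refine mul_le_mul_of_nonneg_left (le_trans ?_ hx.1) (abs_nonneg _)
          rw [← Real.sqrt_sq_eq_abs]
          exact Real.sqrt_le_sqrt (Finset.single_le_sum
            (f := fun i => (c.π x i - x i / Real.sqrt N) ^ 2) (fun _ _ => sq_nonneg _)
            (Finset.mem_univ i))
        have := mul_le_mul_of_nonneg_left h2 hA
        linarith
      simp only [H, Hπ, S, Finset.mul_sum]
      rw [← Finset.sum_add_distrib]
      refine Finset.sum_le_sum fun a _ => ?_
      simpa only [Finset.mul_sum] using hb a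
    have hle : ∫ x, Real.exp (H g x) ∂sphereLaw N ≤
        Real.exp (A * tol * S g) * ∫ x, Real.exp (Hπ (c.π x)) ∂sphereLaw N := by
      rw [← integral_const_mul]
      refine integral_mono_ae (integrable_exp_of_abs_le hHm.of_uncurry_left (hHb g))
        ((integrable_exp_of_abs_le hHπm hHπb).const_mul _) ?_
      filter_upwards [hnear] with x hx
      rw [← Real.exp_add]
      exact Real.exp_le_exp.2 (by linarith)
    have hp1 := (integral_exp_mem (π := sphereLaw N) hHm.of_uncurry_left (hHb g)).1
    have hp2 := (integral_exp_mem (π := sphereLaw N) hHπm hHπb).1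
    have := Real.log_le_log ((Real.exp_pos _).trans_le hp1) hle
    rw [Real.log_mul (Real.exp_pos _).ne' ((Real.exp_pos _).trans_le hp2).ne', Real.log_exp,
      ← e] at this
    simp only [lint]
    linarith
  have hP : (N : ℝ) * meanPressure sphereLaw α f N =
      ∫ g, lint (sphereLaw N) (H g) ∂Measure.pi fun _ : Fin M => gam (Fin N) := by
    rw [meanPressure, patterns, integral_const_mul, ← mul_assoc,
      mul_one_div_cancel (Nat.cast_ne_zero.2 hN.ne'), one_mul]
    rfl
  set π₀ := Measure.pi fun _ : Fin M => gam (Fin N)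
  have hev : ∀ (a : Fin M) (i : Fin N), MeasurePreserving (fun g : Fin M → Fin N → ℝ => g a i) π₀
      (gaussianReal 0 1) := fun a i =>
    (measurePreserving_eval (fun _ : Fin N => gaussianReal 0 1) i).comp
      (measurePreserving_eval (fun _ : Fin M => gam (Fin N)) a)
  have hgi : ∀ a i, Integrable (fun g : Fin M → Fin N → ℝ => |g a i|) π₀ := fun a i =>
    (hev a i).integrable_comp_of_integrable integral_abs_gauss_le.1
  have hgs : ∀ a, Integrable (fun g : Fin M → Fin N → ℝ => ∑ i, |g a i|) π₀ := fun a =>
    integrable_finsetSum _ fun i _ => hgi a i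
  have hSi : Integrable S π₀ := integrable_finsetSum _ fun a _ => hgs a
  have hSle : ∫ g, S g ∂π₀ ≤ M * N := by
    simp only [S]
    rw [integral_finsetSum _ fun a _ => hgs a]
    refine (Finset.sum_le_sum (g := fun _ => (N : ℝ)) fun a _ => ?_).trans_eq (by simp)
    rw [integral_finsetSum _ fun i _ => hgi a i]
    refine (Finset.sum_le_sum (g := fun _ => (1 : ℝ)) fun i _ => ?_).trans_eq (by simp)
    exact (Vale.Agent.P168.Upper.integral_mp (hev a i) continuous_abs.measurable).trans_le
      integral_abs_gauss_le.2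
  rw [hP]
  have hu := cellU_pos c
  have hi2 := integrable_patT_arg hs (n := M) hu π₀
  refine (integral_mono (integrable_bdd (measurable_lint (sphereLaw N) hHm)
    fun g => abs_lint_le hHm.of_uncurry_left (hHb g)) (hi2.add (hSi.const_mul _)) hpt).trans ?_
  simp only [Pi.add_apply]
  rw [integral_add hi2 (hSi.const_mul _), integral_const_mul]
  exact add_le_add le_rfl (mul_le_mul_of_nonneg_left hSle (mul_nonneg hA ht))

end Vale.Agent.P157.Parisi.Sphere.Up
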