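import Vale.Agent.P157.Parisi.Sphere.Upper.Weights
import Vale.Agent.P157.Parisi.Sphere.Upper.Copies
import Vale.Agent.P157.Parisi.Upper.Swap

/-!
One pattern exchanged for a fresh pattern in the cascade, on a finite family of unit vectors.
-/

noncomputable section

open MeasureTheory ProbabilityTheory Filter
open scoped BigOperators ENNReal Topology

namespace Vale.Agent.P157.Parisi.Sphere.Up

open Vale.Agent.P157.Parisi.Up
open Vale.Agent.P168 (Shape shapeMarks CascTree cascLaw cascSum cascMean cascFilter genNested)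
open Vale.Agent.P168.Cascade
open Vale.Agent.P168.Upper (integral_mp mp_pi tendsto_integral_cascFilter cascFilter_neBot)

variable {ξ : Parisi.Path} {f : ℝ → ℝ} {A : ℝ} {β : Type}


variable [MeasurableSpace β] {ν : Measure β} [IsProbabilityMeasure ν]

variable (ν)

/-- The pattern weight of configurations. -/
def patU {N : ℕ} {P : Pts N} (f : ℝ → ℝ) (g : Fin N → ℝ) (σ : Conf P) : ℝ :=
  Real.exp (f (dot g (unitVec σ)))

/-- Weights with a fresh pattern. -/
def patY {N : ℕ} {P : Pts N} (ξ : Path) (f : ℝ → ℝ) (w : Conf P → (Fin ξ.r → β) → ℝ) (g₀ : Fin 1 → ℝ)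
    (η : Fin ξ.r → β × (Fin 1 → ℝ)) : ℝ :=
  (∑ σ, w σ fun i => (η i).1) * leafY ξ f g₀ fun i => (η i).2

/-- The difference of squared overlaps at a tree with a fresh pattern. -/
def swapTerm {N : ℕ} {P : Pts N} (ξ : Path) (f : ℝ → ℝ) (w : Conf P → (Fin ξ.r → β) → ℝ) (n : Fin ξ.r → ℕ)
    (z : (Fin 1 → ℝ) × CascTree (β × (Fin 1 → ℝ)) ξ.r n) : ℝ :=
  (∑ c, comp ξ.m n ξ.q (patY ξ f w z.1) (patN ξ f (fun η => ∑ σ, w σ η) z.1) z.2 c ^ 2) -
    ∑ i, ratio ξ.m n (patY ξ f w z.1) (patN ξ f (mag w i) z.1) z.2 ^ 2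

/-- The exchange on a finite tree. -/
lemma swap_tree (hs : Smooth f A) (hcv : BlockConcave f) {N : ℕ} {P : Pts N} (hN : 0 < N) (hnz : NoZero P)
    {C : ℝ} {w : Conf P → (Fin ξ.r → β) → ℝ} (hw : WBdd C w) {n : Fin ξ.r → ℕ}
    (hn : ∀ i, 0 < n i) {t : CascTree β ξ.r n} (ht : GoodTree ξ.r n t) :
    (∫ g, Real.log (cascMean ξ.m n (fun η => ∑ σ, w σ η * patU f g σ) t) ∂gam (Fin N)) -
        ∫ γ, Real.log (cascMean ξ.m n
          (patY ξ f w fun _ : Fin 1 => γ none)
          (att ξ.r n (t, fun c (_ : Fin 1) => γ (some c)))) ∂gam (Option (Node ξ.r n)) ≤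
      1 / 2 * ∫ γ, swapTerm ξ f w n
        (fun _ : Fin 1 => γ none, att ξ.r n (t, fun c (_ : Fin 1) => γ (some c)))
        ∂gam (Option (Node ξ.r n)) := by
  set δ := 1 - ξ.q (Fin.last ξ.r)
  set W : (Fin ξ.r → β) → ℝ := fun η => ∑ σ, w σ η
  have hW := bdd_sum hw
  set S := cascSum ξ.r ξ.m n W t with hS_def
  have hS : 0 < S := (cascSum_pos hW ξ.m hn ht).2
  have hS1 := cascSum_one_pos ξ.m hn ht
  have : Nonempty (Leaf ξ.r n) := ⟨fun i => ⟨0, hn i⟩⟩
  let p : Conf P × Leaf ξ.r n → ℝ := fun x =>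
    leafW ξ.r ξ.m n t x.2 * w x.1 (leafMarks ξ.r n t x.2) / S
  have hp : ∀ x, 0 ≤ p x := fun x =>
    div_nonneg (mul_nonneg (leafW_pos _ _ _ _ _ ht).le ((hw x.1).gt_zero _).le) hS.le
  have hsum : ∀ F : Conf P → Leaf ξ.r n → ℝ,
      ∑ x, p x * F x.1 x.2 = (∑ l, leafW ξ.r ξ.m n t l *
        ∑ σ, w σ (leafMarks ξ.r n t l) * F σ l) / S := fun F => by
    rw [Fintype.sum_prod_type_right, Finset.sum_div]
    refine Finset.sum_congr rfl fun l _ => ?_
    rw [Finset.mul_sum, Finset.sum_div]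
    exact Finset.sum_congr rfl fun σ _ => by simp only [p]; ring
  have hp1 : ∑ x, p x = 1 := by
    have := hsum fun _ _ => 1
    simp only [mul_one] at this
    rw [this, ← cascSum_eq_sum_leaves ξ.r ξ.m n W t, ← hS_def, div_self hS.ne']
  let u : Leaf ξ.r n → Option (Node ξ.r n) → ℝ := leafVec n ξ.q
  have hu : ∀ l, ∑ c, u l c ^ 2 = ξ.q (Fin.last ξ.r) :=
    sum_leafVec_sq n ξ.isPath.mono ξ.isPath.nonneg
  have key := swap_finite hcv hs hN hnz p hp hp1 u hu ξ.isPath.le_one
  -- the left-hand sides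
  have hlogsub : ∀ a : ℝ, 0 < a → Real.log (a / S) = Real.log (a / cascSum ξ.r ξ.m n (fun _ => 1) t) -
      Real.log (S / cascSum ξ.r ξ.m n (fun _ => 1) t) := fun a ha => by
    rw [Real.log_div ha.ne' hS.ne', Real.log_div ha.ne' hS1.ne', Real.log_div hS.ne' hS1.ne']
    ring
  have e1 : ∀ g, Real.log (cascMean ξ.m n (fun η => ∑ σ, w σ η * patU f g σ) t) =
      logSum p f (fun x => unitVec x.1) g + Real.log (cascMean ξ.m n W t) := fun g => by
    have hpos := (Real.exp_pos _).trans_le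
      (sum_exp_mem hp hp1 (F := fun x => f (dot g (unitVec x.1))) fun x => hs.b0 _).1
    have he : ∑ x, p x * Real.exp (f (dot g (unitVec x.1))) =
        cascSum ξ.r ξ.m n (fun η => ∑ σ, w σ η * patU f g σ) t / S := by
      rw [hsum fun σ _ => Real.exp (f (dot g (unitVec σ))), cascSum_eq_sum_leaves]
      rfl
    rw [logSum, he]
    rw [he] at hpos
    rw [hlogsub _ ((div_pos_iff_of_pos_right hS).1 hpos), cascMean, cascMean]
    ring
  let den : (Option (Node ξ.r n) → ℝ) → ℝ := fun γ => ∑ x, p x * avgExp f δ (dot γ (u x.2))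
  let Y : (Fin 1 → ℝ) → (Fin ξ.r → β × (Fin 1 → ℝ)) → ℝ := patY ξ f w
  let T : (Option (Node ξ.r n) → ℝ) → CascTree (β × (Fin 1 → ℝ)) ξ.r n := fun γ =>
    att ξ.r n (t, fun c _ => γ (some c))
  have hdot : ∀ γ l, dot γ (u l) = pathField ξ.q (γ none) fun i => γ (some (node n l i)) :=
    fun γ l => dot_leafVec n ξ.q l γ
  have hdenY : ∀ γ, den γ = cascSum ξ.r ξ.m n (Y fun _ => γ none) (T γ) / S := fun γ => by
    simp only [den]
    rw [hsum fun _ l => avgExp f δ (dot γ (u l))]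
    simp only [T, cascSum_att, Y, patY, leafY_eq hs, W, Finset.sum_mul, hdot]
    rfl
  have hone : ∀ γ, cascSum ξ.r ξ.m n (fun _ => (1 : ℝ)) (T γ) =
      cascSum ξ.r ξ.m n (fun _ => 1) t := fun γ =>
    cascSum_att_fst ξ.m n (fun _ => 1) _
  have hden : ∀ γ, Real.exp (-A) ≤ den γ ∧ den γ ≤ Real.exp A := fun γ => by
    constructor
    · calc Real.exp (-A) = ∑ x, p x * Real.exp (-A) := by rw [← Finset.sum_mul, hp1, one_mul]
        _ ≤ _ := Finset.sum_le_sum fun x _ =>
          mul_le_mul_of_nonneg_left (avgExp_mem hs _ _).1 (hp x)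
    · calc den γ ≤ ∑ x, p x * Real.exp A := Finset.sum_le_sum fun x _ =>
            mul_le_mul_of_nonneg_left (avgExp_mem hs _ _).2 (hp x)
        _ = Real.exp A := by rw [← Finset.sum_mul, hp1, one_mul]
  have e2 : ∀ γ, Real.log (cascMean ξ.m n (Y fun _ => γ none) (T γ)) =
      Real.log (den γ) + Real.log (cascMean ξ.m n W t) := fun γ => by
    have hpos := (Real.exp_pos _).trans_le (hden γ).1
    rw [hdenY] at hpos ⊢
    rw [hlogsub _ ((div_pos_iff_of_pos_right hS).1 hpos), cascMean, cascMean, hone]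
    ring
  have hdenm : Measurable den := Finset.measurable_sum _ fun x _ =>
    ((measurable_avgExp hs δ).comp
      (measurable_dot.comp (measurable_id.prodMk measurable_const))).const_mul _
  have hi1 : Integrable (logSum p f fun x => unitVec x.1) (gam (Fin N)) :=
    integrable_bdd (measurable_logSum (continuous_of_smooth hs).measurable _)
      fun g => abs_log_sum_exp_le hp hp1 fun x => hs.b0 _
  have hi2 : Integrable (fun γ => Real.log (den γ)) (gam (Option (Node ξ.r n))) :=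
    integrable_bdd hdenm.log fun γ => by
      obtain ⟨h1, h2⟩ := hden γ
      have hpos := (Real.exp_pos _).trans_le h1
      exact abs_le.2 ⟨(Real.le_log_iff_exp_le hpos).2 h1, (Real.log_le_iff_le_exp hpos).2 h2⟩
  -- the pair term
  have e3 : ∀ γ, pairTerm p f δ u γ = swapTerm ξ f w n (fun _ => γ none, T γ) := fun γ => by
    have hq : ∀ (F : Conf P → Leaf ξ.r n → ℝ) (G : (Fin ξ.r → β × (Fin 1 → ℝ)) → Leaf ξ.r n → ℝ),
        (∀ l, (∑ σ, w σ (leafMarks ξ.r n t l) * F σ l) =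
          G (fun i => (leafMarks ξ.r n t l i, fun _ => γ (some (node n l i)))) l) →
        (∑ x, p x * F x.1 x.2) / den γ =
          (∑ l, leafW ξ.r ξ.m n (T γ) l * G (leafMarks ξ.r n (T γ) l) l) /
            cascSum ξ.r ξ.m n (Y fun _ => γ none) (T γ) := fun F G h => by
      rw [hdenY, hsum, div_div_div_cancel_right₀ hS.ne']
      congr 1
      refine Finset.sum_congr rfl fun l _ => ?_
      rw [h, leafW_att]
      congr 2
      exact funext fun i => (leafMarks_att ξ.r n (t, fun c (_ : Fin 1) => γ (some c)) l i).symm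
    simp only [pairTerm, swapTerm, patN]
    congr 1
    · refine Finset.sum_congr rfl fun c _ => congrArg (· ^ 2) ?_
      refine (hq (fun _ l => u l c * avgDExp f δ (dot γ (u l)))
        (fun η l => ((W fun i => (η i).1) * patD ξ f (fun _ => γ none) fun i => (η i).2) *
          leafVec n ξ.q l c) fun l => ?_).trans rfl
      simp only [W, Finset.sum_mul, hdot]
      exact Finset.sum_congr rfl fun σ _ => by simp only [patD, δ, u]; ring
    · refine Finset.sum_congr rfl fun i _ => congrArg (· ^ 2) ?_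
      refine (hq (fun σ l => unitVec σ i * avgDExp f δ (dot γ (u l)))
        (fun η _ => (mag w i fun j => (η j).1) * patD ξ f (fun _ => γ none) fun j => (η j).2)
        fun l => ?_).trans ?_
      · simp only [mag, Finset.sum_mul, hdot]
        exact Finset.sum_congr rfl fun σ _ => by simp only [patD, δ]; ring
      · rw [ratio, cascSum_eq_sum_leaves ξ.r ξ.m n (patN ξ f (mag w i) fun _ => γ none)]
        rfl
  simp only [e1, Y, T, W] at e1 e2 e3 ⊢
  simp only [e2, ← e3]
  rw [integral_add hi1 (integrable_const _), integral_add hi2 (integrable_const _)]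
  simp only [integral_const, probReal_univ, one_smul]
  simp only [den] at key ⊢
  have : meanLog p f (fun x => unitVec x.1) = ∫ g, logSum p f (fun x => unitVec x.1) g ∂gam (Fin N) :=
    rfl
  linarith

section limits

variable {N : ℕ} {P : Pts N} {C : ℝ} {w : Conf P → (Fin ξ.r → β) → ℝ}

omit [IsProbabilityMeasure ν]

lemma measurable_patY (hs : Smooth f A) (hw : WBdd C w) :
    Measurable (Function.uncurry (patY ξ f w)) :=
  ((bdd_sum hw).meas.comp measurable_fst2).mul ((measurable_leafY hs).comp measurable_snd2)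

/-- The bound of weights with a pattern. -/
def cU (A C : ℝ) (P : Pts N) : ℝ := Fintype.card (Conf P) * C * Real.exp A

lemma bdd_patY (hs : Smooth f A) (hw : WBdd C w) (g₀ : Fin 1 → ℝ) :
    Bdd (cU A C P) (patY ξ f w g₀) := by
  have hW := bdd_sum hw
  have hC₀ := hW.pos
  refine ⟨mul_pos hC₀ (Real.exp_pos _), (measurable_patY hs hw).comp
    (measurable_const.prodMk measurable_id), fun η => ⟨?_, ?_⟩⟩
  · rw [cU, mul_inv]
    exact mul_le_mul (hW.mem _).1 ((bdd_leafY hs g₀).mem _).1 (by positivity) (hW.gt_zero _).le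
  · exact mul_le_mul (hW.mem _).2 ((bdd_leafY hs g₀).mem _).2 ((bdd_leafY hs g₀).gt_zero _).le
      hC₀.le

lemma abs_sumW_le (hw : WBdd C w) (η : Fin ξ.r → β) :
    |∑ σ, w σ η| ≤ Fintype.card (Conf P) * C :=
  (abs_of_pos ((bdd_sum hw).gt_zero η)).trans_le ((bdd_sum hw).mem η).2

lemma abs_mag_le' (hw : WBdd C w) (i : Fin N) (η : Fin ξ.r → β) :
    |mag w i η| ≤ Fintype.card (Conf P) * C :=
  (abs_mag_le hw i η).trans ((bdd_sum hw).mem η).2

lemma measurable_swapTerm (hs : Smooth f A) (hw : WBdd C w) (n : Fin ξ.r → ℕ) :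
    Measurable (swapTerm ξ f w n) := by
  have hY := measurable_cascSum_param ξ.m n (measurable_patY hs hw)
  refine (Finset.measurable_sum _ fun c _ => Measurable.pow_const ?_ 2).sub
    ((Finset.measurable_sum _ fun i _ => ((measurable_cascSum_param ξ.m n
      (measurable_patN hs (measurable_mag hw i))).div hY).pow_const 2))
  exact (Finset.measurable_sum _ fun l _ => ((measurable_leafW _ ξ.m n l).comp measurable_snd).mul
    (((measurable_patN hs (bdd_sum hw).meas).comp (measurable_fst.prodMk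
      ((measurable_leafMarks _ n l).comp measurable_snd))).mul_const _)).div hY

/-- The bound of `swapTerm`. -/
def cK (A C : ℝ) (P : Pts N) : ℝ :=
  (cU A C P * (Fintype.card (Conf P) * C * (A * Real.exp A))) *
    (cU A C P * (Fintype.card (Conf P) * C * (A * Real.exp A)))

lemma abs_swapTerm_le (hs : Smooth f A) (hN : 0 < N) (hnz : NoZero P) (hw : WBdd C w) (n : Fin ξ.r → ℕ)
    (g₀ : Fin 1 → ℝ) (t : CascTree (β × (Fin 1 → ℝ)) ξ.r n) (ht : GoodTree ξ.r n t) :
    |swapTerm ξ f w n (g₀, t)| ≤ ((N : ℝ) + 1) * cK A C P := by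
  have hY := bdd_patY hs hw g₀
  have hA0 := smooth_nonneg hs
  have hC₀ := (bdd_sum hw).pos
  have hBD : 0 ≤ Fintype.card (Conf P) * C * (A * Real.exp A) := by positivity
  have h1 := sum_comp_sq_le (m := ξ.m) ξ.isPath.mono ξ.isPath.nonneg ξ.isPath.le_one hY hBD
    (abs_patN_le hs (abs_sumW_le hw) g₀) ht
  have h2 : ∀ i, ratio ξ.m n (patY ξ f w g₀) (patN ξ f (mag w i) g₀) t ^ 2 ≤ cK A C P := fun i => by
    have := abs_ratio_le' hY hBD (abs_patN_le hs (abs_mag_le' hw i) g₀) ξ.m n ht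
    rw [← sq_abs, sq]
    exact mul_le_mul this this (abs_nonneg _) ((abs_nonneg _).trans this)
  have h3 : ∑ i, ratio ξ.m n (patY ξ f w g₀) (patN ξ f (mag w i) g₀) t ^ 2 ≤ N * cK A C P :=
    (Finset.sum_le_sum fun i _ => h2 i).trans_eq (by simp)
  have h4 : 0 ≤ ∑ c, comp ξ.m n ξ.q (patY ξ f w g₀) (patN ξ f (fun η => ∑ σ, w σ η) g₀) t c ^ 2 :=
    Finset.sum_nonneg fun c _ => sq_nonneg _
  have h5 : 0 ≤ ∑ i, ratio ξ.m n (patY ξ f w g₀) (patN ξ f (mag w i) g₀) t ^ 2 := by positivity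
  have hcK : 0 ≤ cK A C P := mul_self_nonneg _
  have h6 : 0 ≤ (N : ℝ) * cK A C P := by positivity
  have h1' : ∑ c, comp ξ.m n ξ.q (patY ξ f w g₀) (patN ξ f (fun η => ∑ σ, w σ η) g₀) t c ^ 2 ≤
      cK A C P := h1
  simp only [swapTerm]
  rw [abs_le]
  constructor <;> linarith

variable [IsProbabilityMeasure ν]

lemma pairM_patN (hT : TiltFactorStmt) (hs : Smooth f A) (hm : Exps ξ.m) (hw : WBdd C w)
    (g₀ : Fin 1 → ℝ) {G : (Fin ξ.r → β) → ℝ} (hG : Measurable G)
    (hb : ∀ η, |G η| ≤ Fintype.card (Conf P) * C) (p : Fin (ξ.r + 1)) :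
    pairM (ν.prod (gam (Fin 1))) ξ.m (patY ξ f w g₀) (patN ξ f G g₀) (patN ξ f G g₀) p =
      pairM ν ξ.m (fun η => ∑ σ, w σ η) G G p *
        pairM (gam (Fin 1)) ξ.m (leafY ξ f g₀) (patD ξ f g₀) (patD ξ f g₀) p := by
  have hd : Measurable (patD ξ f g₀) :=
    (measurable_patD hs).comp (measurable_const.prodMk measurable_id)
  have hdb : ∀ η, |patD ξ f g₀ η| ≤
      max (max (Fintype.card (Conf P) * C) (Real.exp A)) (A * Real.exp A) := fun η =>
    (abs_avgDExp_le hs _ _).trans (le_max_right _ _)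
  exact pairM_prod hT ν (gam (Fin 1)) hm
    (bdd_mono ((le_max_left _ _).trans (le_max_left _ _)) (bdd_sum hw))
    (bdd_mono ((le_max_right _ _).trans (le_max_left _ _)) (bdd_leafY hs g₀)) hG hG hd hd
    (fun η => (hb η).trans ((le_max_left _ _).trans (le_max_left _ _)))
    (fun η => (hb η).trans ((le_max_left _ _).trans (le_max_left _ _))) hdb hdb p

lemma swap_limit (hT : TiltFactorStmt) (hs : Smooth f A) (hm : Exps ξ.m)
    (hw : WBdd C w) (g₀ : Fin 1 → ℝ) :
    Tendsto (fun n => ∫ t, swapTerm ξ f w n (g₀, t) ∂cascLaw (ν.prod (gam (Fin 1))) ξ.r n)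
      (cascFilter ξ.r) (𝓝 (∑ p : Fin (ξ.r + 1), weight ξ.m p *
        (pairM (gam (Fin 1)) ξ.m (leafY ξ f g₀) (patD ξ f g₀) (patD ξ f g₀) p *
          (ξ.q p - bVal ν ξ.m w p)))) := by
  set ν' := ν.prod (gam (Fin 1))
  have hY := bdd_patY hs hw g₀
  have hA0 := smooth_nonneg hs
  have hC₀ := (bdd_sum hw).pos
  set BD := Fintype.card (Conf P) * C * (A * Real.exp A)
  have hBD : 0 ≤ BD := by positivity
  set G₀ := patN ξ f (fun η => ∑ σ, w σ η) g₀
  set G₁ : Fin N → (Fin ξ.r → β × (Fin 1 → ℝ)) → ℝ := fun i => patN ξ f (mag w i) g₀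
  have hm0 : Measurable G₀ := measurable_patN' hs (bdd_sum hw).meas g₀
  have hm1 : ∀ i, Measurable (G₁ i) := fun i => measurable_patN' hs (measurable_mag hw i) g₀
  have hb0 : ∀ η, |G₀ η| ≤ BD := abs_patN_le hs (abs_sumW_le hw) g₀
  have hb1 : ∀ i η, |G₁ i η| ≤ BD := fun i => abs_patN_le hs (abs_mag_le' hw i) g₀
  have l1 := tendsto_sumSq hT ν' hm ξ.isPath.mono ξ.isPath.nonneg hY hm0 hBD hb0
  have l2 := fun i => tendsto_ratio_mul ν' hm hY (hm1 i) (hm1 i) (hb1 i) (hb1 i)
  have l3 := l1.sub (tendsto_finsetSum Finset.univ fun i _ => l2 i)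
  have e0 : ∀ p, pairM ν' ξ.m (patY ξ f w g₀) G₀ G₀ p =
      pairM (gam (Fin 1)) ξ.m (leafY ξ f g₀) (patD ξ f g₀) (patD ξ f g₀) p := fun p =>
    (pairM_patN ν hT hs hm hw g₀ (bdd_sum hw).meas (abs_sumW_le hw) p).trans
      (by rw [pairM_self ν hm (bdd_sum hw), one_mul])
  have e1 : ∀ i p, pairM ν' ξ.m (patY ξ f w g₀) (G₁ i) (G₁ i) p =
      pairM ν ξ.m (fun η => ∑ σ, w σ η) (mag w i) (mag w i) p *
        pairM (gam (Fin 1)) ξ.m (leafY ξ f g₀) (patD ξ f g₀) (patD ξ f g₀) p := fun i p =>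
    pairM_patN ν hT hs hm hw g₀ (measurable_mag hw i) (abs_mag_le' hw i) p
  have eL : (∑ p : Fin (ξ.r + 1), weight ξ.m p * (ξ.q p * pairM ν' ξ.m (patY ξ f w g₀) G₀ G₀ p)) -
      ∑ i : Fin N, ∑ p : Fin (ξ.r + 1),
        weight ξ.m p * pairM ν' ξ.m (patY ξ f w g₀) (G₁ i) (G₁ i) p =
      ∑ p : Fin (ξ.r + 1), weight ξ.m p *
        (pairM (gam (Fin 1)) ξ.m (leafY ξ f g₀) (patD ξ f g₀) (patD ξ f g₀) p *
          (ξ.q p - bVal ν ξ.m w p)) := by
    simp only [e0, e1, bVal]
    rw [Finset.sum_comm, ← Finset.sum_sub_distrib]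
    refine Finset.sum_congr rfl fun p _ => ?_
    rw [← Finset.mul_sum, ← Finset.sum_mul]
    ring
  rw [← eL]
  refine l3.congr fun n => ?_
  have hrm : ∀ i, Measurable fun t => ratio ξ.m n (patY ξ f w g₀) (G₁ i) t := fun i =>
    (measurable_cascSum ξ.m n (hm1 i)).div (measurable_cascSum ξ.m n hY.meas)
  have hS : Integrable (fun t => ∑ c, comp ξ.m n ξ.q (patY ξ f w g₀) G₀ t c ^ 2)
      (cascLaw ν' ξ.r n) := by
    refine Integrable.of_bound (Measurable.aestronglyMeasurable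
      (Finset.measurable_sum _ fun c _ => Measurable.pow_const
        ((Finset.measurable_sum _ fun l _ => (measurable_leafW _ ξ.m n l).mul
          ((hm0.comp (measurable_leafMarks _ n l)).mul_const _)).div
          (measurable_cascSum ξ.m n hY.meas)) 2))
      ((cU A C P * BD) * (cU A C P * BD)) ((ae_good ν' ξ.r n).mono fun t ht => ?_)
    rw [Real.norm_eq_abs, abs_of_nonneg (Finset.sum_nonneg fun c _ => sq_nonneg _)]
    exact sum_comp_sq_le ξ.isPath.mono ξ.isPath.nonneg ξ.isPath.le_one hY hBD hb0 ht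
  have hR : ∀ i, Integrable (fun t => ratio ξ.m n (patY ξ f w g₀) (G₁ i) t *
      ratio ξ.m n (patY ξ f w g₀) (G₁ i) t) (cascLaw ν' ξ.r n) := fun i => by
    refine Integrable.of_bound ((hrm i).mul (hrm i)).aestronglyMeasurable
      ((cU A C P * BD) * (cU A C P * BD)) ((ae_good ν' ξ.r n).mono fun t ht => ?_)
    rw [Real.norm_eq_abs, abs_mul]
    have := abs_ratio_le' hY hBD (hb1 i) ξ.m n ht
    exact mul_le_mul this this (abs_nonneg _) ((abs_nonneg _).trans this)
  rw [← integral_finsetSum _ fun i _ => hR i, ← integral_sub hS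
    (integrable_finsetSum _ fun i _ => hR i)]
  simp only [swapTerm, sq]
  rfl

end limits

/-- Exchanging one pattern for a fresh one in the cascade. -/
theorem swapStep (hT : TiltFactorStmt) (hTS : TreeShapeStmt) (hSl : SlopeStmt) (hs : Smooth f A)
    (hcv : BlockConcave f) {N : ℕ} {P : Pts N} (hN : 0 < N) (hnz : NoZero P) (hm : Exps ξ.m) {C : ℝ}
    {w : Conf P → (Fin ξ.r → β) → ℝ} (hw : WBdd C w) :
    ∫ g, Phi ν ξ.m (fun σ η => w σ η * patU f g σ) ∂gam (Fin N) ≤
      (∫ g₀, Phi (ν.prod (gam (Fin 1))) ξ.m (tens w fun _ => leafY ξ f g₀) ∂gam (Fin 1)) +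
        1 / 2 * ∑ p : Fin (ξ.r + 1),
          weight ξ.m p * (slope f ξ.m ξ.q p * (ξ.q p - bVal ν ξ.m w p)) := by
  set ν' := ν.prod (gam (Fin 1))
  have hW := bdd_sum hw
  set CU := cU A C P
  set UU : (Fin N → ℝ) → (Fin ξ.r → β) → ℝ := fun g η => ∑ σ, w σ η * patU f g σ
  have hUm : Measurable (Function.uncurry UU) := Finset.measurable_sum _ fun σ _ =>
    ((hw σ).meas.comp measurable_snd).mul (((continuous_of_smooth hs).measurable.comp
      (measurable_dot.comp (measurable_fst.prodMk measurable_const))).exp)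
  have hUb : ∀ g, Bdd CU (UU g) := fun g => by
    refine ⟨mul_pos hW.pos (Real.exp_pos _), hUm.comp (measurable_const.prodMk measurable_id),
      fun η => ⟨?_, ?_⟩⟩
    · calc CU⁻¹ = (Fintype.card (Conf P) * C)⁻¹ * Real.exp (-A) := by
            simp only [CU, cU]; rw [mul_inv, Real.exp_neg]
        _ ≤ (∑ σ, w σ η) * Real.exp (-A) :=
            mul_le_mul_of_nonneg_right (hW.mem η).1 (Real.exp_pos _).le
        _ ≤ _ := by
          simp only [Finset.sum_mul, UU]
          exact Finset.sum_le_sum fun σ _ => mul_le_mul_of_nonneg_left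
            (Real.exp_le_exp.2 (abs_le.1 (hs.b0 _)).1) ((hw σ).gt_zero η).le
    · calc UU g η ≤ (∑ σ, w σ η) * Real.exp A := by
            simp only [Finset.sum_mul, UU]
            exact Finset.sum_le_sum fun σ _ => mul_le_mul_of_nonneg_left
              (Real.exp_le_exp.2 (abs_le.1 (hs.b0 _)).2) ((hw σ).gt_zero η).le
        _ ≤ CU := mul_le_mul_of_nonneg_right (hW.mem η).2 (Real.exp_pos _).le
  have hYm := measurable_patY hs hw
  have hY := bdd_patY hs hw
  have limA := tendsto_integral_logMean (ν := ν) (gam (Fin N)) hm hUm hUb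
  have limB := tendsto_integral_logMean (ν := ν') (gam (Fin 1)) hm hYm hY
  set Lim : (Fin 1 → ℝ) → ℝ := fun g₀ => ∑ p : Fin (ξ.r + 1), weight ξ.m p *
    (pairM (gam (Fin 1)) ξ.m (leafY ξ f g₀) (patD ξ f g₀) (patD ξ f g₀) p *
      (ξ.q p - bVal ν ξ.m w p))
  have hHm := measurable_swapTerm hs hw
  have hHb := abs_swapTerm_le hs hN hnz hw
  have hFb : ∀ (n : Fin ξ.r → ℕ) g₀,
      |∫ t, swapTerm ξ f w n (g₀, t) ∂cascLaw ν' ξ.r n| ≤ ((N : ℝ) + 1) * cK A C P := fun n g₀ => by
    have := norm_integral_le_of_norm_le_const (μ := cascLaw ν' ξ.r n)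
      (f := fun t => swapTerm ξ f w n (g₀, t)) (C := ((N : ℝ) + 1) * cK A C P)
      ((ae_good ν' ξ.r n).mono fun t ht => hHb n g₀ t ht)
    simpa using this
  have hLb : ∀ g₀, |Lim g₀| ≤ ((N : ℝ) + 1) * cK A C P := fun g₀ =>
    haveI := cascFilter_neBot ξ.r
    le_of_tendsto' (swap_limit ν hT hs hm hw g₀).abs fun n => hFb n g₀
  have hLm : Measurable Lim := Finset.measurable_sum _ fun p _ =>
    ((measurable_pairM (gam (Fin 1)) ξ.m (measurable_leafY hs) (measurable_patD hs)
      (measurable_patD hs) p).mul_const _).const_mul _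
  have limC := tendsto_integral_cascFilter (gam (Fin 1))
    (fun n g₀ => ∫ t, swapTerm ξ f w n (g₀, t) ∂cascLaw ν' ξ.r n) Lim (((N : ℝ) + 1) * cK A C P)
    (fun n => ((hHm n).stronglyMeasurable.integral_prod_right').measurable) hLm hFb hLb
    (swap_limit ν hT hs hm hw)
  have hfin : ∀ n : Fin ξ.r → ℕ, (∀ i, 0 < n i) →
      ∫ g, ∫ t, Real.log (cascMean ξ.m n (UU g) t) ∂cascLaw ν ξ.r n ∂gam (Fin N) ≤
        (∫ g₀, ∫ t, Real.log (cascMean ξ.m n (patY ξ f w g₀) t) ∂cascLaw ν' ξ.r n ∂gam (Fin 1)) +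
          1 / 2 * ∫ g₀, ∫ t, swapTerm ξ f w n (g₀, t) ∂cascLaw ν' ξ.r n ∂gam (Fin 1) := by
    intro n hn
    have hUi : Integrable (Function.uncurry fun g t => Real.log (cascMean ξ.m n (UU g) t))
        ((gam (Fin N)).prod (cascLaw ν ξ.r n)) := by
      refine Integrable.of_bound (((measurable_cascSum_param ξ.m n hUm).div
        (measurable_cascSum_param ξ.m n (Y := fun _ _ => (1 : ℝ))
          measurable_const)).log).aestronglyMeasurable |Real.log CU| ?_
      filter_upwards [Measure.quasiMeasurePreserving_snd.ae (ae_good ν ξ.r n)] with z hz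
      exact abs_log_cascMean_le (hUb z.1) ξ.m n hz
    obtain ⟨iB, eB⟩ := integral_root (ν := ν) n
      (H := fun z => Real.log (cascMean ξ.m n (patY ξ f w z.1) z.2))
      (((measurable_cascSum_param ξ.m n hYm).div (measurable_cascSum_param ξ.m n
        (Y := fun _ _ => (1 : ℝ)) measurable_const)).log)
      fun g₀ t ht => abs_log_cascMean_le (hY g₀) ξ.m n ht
    obtain ⟨iC, eC⟩ := integral_root (ν := ν) n (hHm n) (hHb n)
    rw [integral_integral_swap hUi, ← eB, ← eC, ← integral_const_mul, ← integral_add iB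
      (iC.const_mul _)]
    refine integral_mono_ae hUi.integral_prod_right (iB.add (iC.const_mul _)) ?_
    filter_upwards [ae_good ν ξ.r n] with t ht
    have := swap_tree hs hcv hN hnz hw hn ht
    dsimp [UU] at this ⊢
    linarith
  have := cascFilter_neBot ξ.r
  have hmain := le_of_tendsto_of_tendsto limA (limB.add (limC.const_mul (1 / 2)))
    ((eventually_pos ξ.r).mono hfin)
  have eI : ∫ g₀, Lim g₀ ∂gam (Fin 1) = ∑ p : Fin (ξ.r + 1),
      weight ξ.m p * (slope f ξ.m ξ.q p * (ξ.q p - bVal ν ξ.m w p)) := by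
    simp only [Lim]
    rw [integral_finsetSum _ fun p _ =>
      ((integrable_pairM_pat hs hm p).mul_const _).const_mul _]
    refine Finset.sum_congr rfl fun p _ => ?_
    rw [integral_const_mul, integral_mul_const, integral_pairM_pat hTS hSl hs]
  rw [eI] at hmain
  refine hmain.trans_eq ?_
  congr 1
  refine integral_congr_ae (Eventually.of_forall fun g₀ => ?_)
  simp only [Phi, sum_tens_const]
  rfl

end Vale.Agent.P157.Parisi.Sphere.Up
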