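import Vale.Agent.P157.Parisi.Sphere.Upper.Chord
import Vale.Agent.P157.Parisi.Upper.Weights

/-!
Weights on a finite family of unit vectors.
-/

noncomputable section

open MeasureTheory ProbabilityTheory Filter
open scoped BigOperators ENNReal Topology

namespace Vale.Agent.P157.Parisi.Sphere.Up

open Vale.Agent.P157.Parisi.Up
open Vale.Agent.P168 (genNested)
open Vale.Agent.P168.Cascade


variable {β γ : Type} [MeasurableSpace β] [MeasurableSpace γ] {r N : ℕ} {P : Pts N}

/-- The free energy of weights. -/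
def Phi (ν : Measure β) (m : Fin r → ℝ) (w : Conf P → (Fin r → β) → ℝ) : ℝ :=
  Real.log (genNested ν m fun η => ∑ σ, w σ η)

/-- Bounded positive weights. -/
def WBdd (C : ℝ) (w : Conf P → (Fin r → β) → ℝ) : Prop := ∀ σ, Bdd C (w σ)

/-- Weights times independent factors. -/
def tens (w : Conf P → (Fin r → β) → ℝ) (Z : Conf P → (Fin r → γ) → ℝ) :
    Conf P → (Fin r → β × γ) → ℝ :=
  fun σ η => (w σ fun i => (η i).1) * Z σ fun i => (η i).2

/-- The unnormalised magnetisation. -/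
def mag (w : Conf P → (Fin r → β) → ℝ) (i : Fin N) (η : Fin r → β) : ℝ := ∑ σ, w σ η * unitVec σ i

/-- The overlap moment at depth `p`. -/
def bVal (ν : Measure β) (m : Fin r → ℝ) (w : Conf P → (Fin r → β) → ℝ) (p : Fin (r + 1)) : ℝ :=
  ∑ i, pairM ν m (fun η => ∑ σ, w σ η) (mag w i) (mag w i) p

lemma bdd_sum {C : ℝ} {w : Conf P → (Fin r → β) → ℝ} (hw : WBdd C w) :
    Bdd (Fintype.card (Conf P) * C) fun η => ∑ σ, w σ η := by
  have hc : (1 : ℝ) ≤ Fintype.card (Conf P) := by exact_mod_cast Fintype.card_pos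
  have hC := (hw default).pos
  refine ⟨by positivity, Finset.measurable_sum _ fun σ _ => (hw σ).meas, fun η => ⟨?_, ?_⟩⟩
  · calc (Fintype.card (Conf P) * C)⁻¹ ≤ C⁻¹ := inv_anti₀ hC (le_mul_of_one_le_left hC.le hc)
      _ ≤ w default η := ((hw default).mem η).1
      _ ≤ _ := Finset.single_le_sum (fun σ _ => ((hw σ).gt_zero η).le) (Finset.mem_univ default)
  · exact (Finset.sum_le_sum fun σ _ => ((hw σ).mem η).2).trans_eq (by simp)

lemma measurable_mag {C : ℝ} {w : Conf P → (Fin r → β) → ℝ} (hw : WBdd C w) (i : Fin N) :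
    Measurable (mag w i) :=
  Finset.measurable_sum _ fun σ _ => (hw σ).meas.mul_const _

lemma abs_mag_le {C : ℝ} {w : Conf P → (Fin r → β) → ℝ} (hw : WBdd C w) (i : Fin N)
    (η : Fin r → β) : |mag w i η| ≤ ∑ σ, w σ η := by
  refine (Finset.abs_sum_le_sum_abs _ _).trans (Finset.sum_le_sum fun σ _ => ?_)
  rw [abs_mul, abs_of_pos ((hw σ).gt_zero η)]
  exact mul_le_of_le_one_right ((hw σ).gt_zero η).le (abs_unitVec_le σ i)

lemma abs_bVal_le {C : ℝ} (ν : Measure β) [IsProbabilityMeasure ν] {m : Fin r → ℝ} (hm : Exps m)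
    {w : Conf P → (Fin r → β) → ℝ} (hw : WBdd C w) (p : Fin (r + 1)) : |bVal ν m w p| ≤ N := by
  rw [bVal]
  exact (Finset.abs_sum_le_sum_abs _ _).trans ((Finset.sum_le_sum fun i _ =>
    abs_pairM_le ν hm (bdd_sum hw) (abs_mag_le hw i) (abs_mag_le hw i) p).trans_eq (by simp))

lemma sum_tens_const (w : Conf P → (Fin r → β) → ℝ) (Z : (Fin r → γ) → ℝ) (η : Fin r → β × γ) :
    ∑ σ, tens w (fun _ => Z) σ η = (∑ σ, w σ fun i => (η i).1) * Z fun i => (η i).2 :=
  (Finset.sum_mul ..).symm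


end Vale.Agent.P157.Parisi.Sphere.Up
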